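import Mathlib

/-!
P092 (helper136), block (5)/(6) of project B, group side: every element of `SL_n(k)` outside the
centre is detected by a continuous function which an inner automorphism multiplies by a constant
larger than one.
-/

set_option linter.all false

namespace Vale.Agent.P092.H136

open Matrix Matrix.SpecialLinearGroup

/-- Every `g ≠ 1` is detected by a continuous function which some inner automorphism multiplies by
a constant `> 1`. -/
def Rec (G : Type) [Group G] [TopologicalSpace G] : Prop :=
  ∀ g : G, g ≠ 1 → ∃ (h : G) (f : G → ℝ) (q : ℝ), Continuous f ∧ 1 < q ∧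
    (∀ x, f (h * x * h⁻¹) = q * f x) ∧ 0 < f g

section sl

variable {k : Type} [NontriviallyNormedField k] {n : Type} [Fintype n] [DecidableEq n]

theorem diag_conj {i j : n} (hij : i ≠ j) (a : k) (ha : a ≠ 0) (x : SpecialLinearGroup n k) :
    ((diag2n hij a ha * x * (diag2n hij a ha)⁻¹ : SpecialLinearGroup n k) : Matrix n n k) i j =
      a ^ 2 * (x : Matrix n n k) i j := by
  have h1 : diag2n hij a ha * diag2n hij a⁻¹ (inv_ne_zero ha) = 1 := by
    refine Subtype.ext ?_
    rw [coe_mul, diag2n_coe, diag2n_coe, diagonal_mul_diagonal, coe_one, ← diagonal_one]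
    congr 1
    funext l
    split_ifs <;> simp [ha]
  have h2 : (diag2n hij a ha)⁻¹ = diag2n hij a⁻¹ (inv_ne_zero ha) := inv_eq_of_mul_eq_one_right h1
  rw [h2, coe_mul, coe_mul, diag2n_coe, diag2n_coe, mul_diagonal, diagonal_mul]
  simp [hij.symm]
  ring

theorem continuous_entry (i j : n) :
    Continuous fun g : SpecialLinearGroup n k => (g : Matrix n n k) i j :=
  (_root_.continuous_apply j).comp (Matrix.SpecialLinearGroup.continuous_apply _ continuous_id i)

/-- a non-central element has a conjugate with an off-diagonal entry -/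
theorem exists_offdiag {g : SpecialLinearGroup n k}
    (hg : g ∉ Subgroup.center (SpecialLinearGroup n k)) :
    ∃ (u : SpecialLinearGroup n k) (i j : n), i ≠ j ∧
      ((u * g * u⁻¹ : SpecialLinearGroup n k) : Matrix n n k) i j ≠ 0 := by
  by_contra hcon
  push Not at hcon
  apply hg
  have h0 : ∀ i j : n, i ≠ j → (g : Matrix n n k) i j = 0 := by
    intro i j hij
    have := hcon 1 i j hij
    simpa using this
  have h1 : ∀ i j : n, i ≠ j → (g : Matrix n n k) i i = (g : Matrix n n k) j j := by
    intro i j hij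
    have h2 := hcon (transvection hij (1 : k)) i j hij
    rw [transvection_inv, coe_mul, coe_mul] at h2
    have e1 : ((transvection hij (1 : k) : SpecialLinearGroup n k) : Matrix n n k) = 1 + single i j 1 := rfl
    have e2 : ((transvection hij (-1 : k) : SpecialLinearGroup n k) : Matrix n n k) = 1 + single i j (-1) := rfl
    rw [e1, e2] at h2
    simp only [add_mul, mul_add, one_mul, mul_one, Matrix.add_apply] at h2
    rw [h0 i j hij] at h2
    have e3 : ((g : Matrix n n k) * single i j (-1 : k)) i j = - (g : Matrix n n k) i i := by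
      rw [Matrix.mul_single_apply_same]; ring
    have e4 : (single i j (1 : k) * (g : Matrix n n k)) i j = (g : Matrix n n k) j j := by
      rw [Matrix.single_mul_apply_same]; ring
    have e5 : (single i j (1 : k) * (g : Matrix n n k) * single i j (-1 : k)) i j = 0 := by
      rw [Matrix.mul_single_apply_same, Matrix.single_mul_apply_same, h0 j i hij.symm]; ring
    rw [e3, e4, e5] at h2
    linear_combination -h2
  rw [Matrix.SpecialLinearGroup.mem_center_iff]
  by_cases hn : Nonempty n
  · obtain ⟨i₀⟩ := hn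
    have h3 : scalar n ((g : Matrix n n k) i₀ i₀) = (g : Matrix n n k) := by
      ext a b
      rw [scalar_apply, diagonal_apply]
      split_ifs with hab
      · subst hab
        by_cases h : a = i₀
        · rw [h]
        · exact (h1 a i₀ h).symm
      · exact (h0 a b hab).symm
    refine ⟨(g : Matrix n n k) i₀ i₀, ?_, h3⟩
    have := g.2
    rw [← h3, scalar_apply, det_diagonal, Finset.prod_const, Finset.card_univ] at this
    exact this
  · rw [not_nonempty_iff] at hn
    exact ⟨1, one_pow _, Subsingleton.elim _ _⟩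

theorem sl_rec {g : SpecialLinearGroup n k} (hg : g ∉ Subgroup.center (SpecialLinearGroup n k)) :
    ∃ (h : SpecialLinearGroup n k) (f : SpecialLinearGroup n k → ℝ) (q : ℝ), Continuous f ∧
      1 < q ∧ (∀ x, f (h * x * h⁻¹) = q * f x) ∧
      (∀ z ∈ Subgroup.center (SpecialLinearGroup n k), ∀ x, f (x * z) = f x) ∧ 0 < f g := by
  obtain ⟨u, i, j, hij, hu⟩ := exists_offdiag hg
  obtain ⟨a, ha⟩ := NormedField.exists_one_lt_norm k
  have ha0 : a ≠ 0 := by
    rintro rfl
    rw [norm_zero] at ha
    linarith
  refine ⟨u⁻¹ * diag2n hij a ha0 * u,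
    fun x => ‖((u * x * u⁻¹ : SpecialLinearGroup n k) : Matrix n n k) i j‖, ‖a‖ ^ 2, ?_, ?_, ?_, ?_, ?_⟩
  · exact ((continuous_entry i j).comp (by fun_prop)).norm
  · nlinarith
  · intro x
    have h1 : u * (u⁻¹ * diag2n hij a ha0 * u * x * (u⁻¹ * diag2n hij a ha0 * u)⁻¹) * u⁻¹ =
        diag2n hij a ha0 * (u * x * u⁻¹) * (diag2n hij a ha0)⁻¹ := by group
    change ‖((u * (u⁻¹ * diag2n hij a ha0 * u * x * (u⁻¹ * diag2n hij a ha0 * u)⁻¹) * u⁻¹ : SpecialLinearGroup n k) : Matrix n n k) i j‖ = _
    rw [h1, diag_conj, norm_mul, norm_pow]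
  · intro z hz x
    have h2 : u * (x * z) * u⁻¹ = u * x * u⁻¹ * z := by
      rw [mul_assoc, mul_assoc x z, ← Subgroup.mem_center_iff.1 hz u⁻¹]
      group
    change ‖((u * (x * z) * u⁻¹ : SpecialLinearGroup n k) : Matrix n n k) i j‖ = ‖((u * x * u⁻¹ : SpecialLinearGroup n k) : Matrix n n k) i j‖
    rw [h2]
    obtain ⟨r, hr, hz2⟩ := Matrix.SpecialLinearGroup.mem_center_iff.1 hz
    rw [coe_mul, ← hz2, scalar_apply, mul_diagonal, norm_mul]
    have hn : Fintype.card n ≠ 0 := by
      have : Nonempty n := ⟨i⟩
      exact Fintype.card_ne_zero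
    have h3 : ‖r‖ = 1 := by
      have h4 : ‖r‖ ^ Fintype.card n = 1 := by rw [← norm_pow, hr, norm_one]
      exact (pow_eq_one_iff_of_nonneg (norm_nonneg r) hn).1 h4
    rw [h3, mul_one]
  · exact norm_pos_iff.2 hu

/-- the adjoint group `SL_n(k)/centre` has the recurrence property -/
theorem rec_psl : Rec (SpecialLinearGroup n k ⧸ Subgroup.center (SpecialLinearGroup n k)) := by
  intro g
  refine QuotientGroup.induction_on g fun g => ?_
  intro hg
  have hg' : g ∉ Subgroup.center (SpecialLinearGroup n k) := fun h =>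
    hg ((QuotientGroup.eq_one_iff g).2 h)
  obtain ⟨h, f, q, hf, hq, hx, hz, h0⟩ := sl_rec hg'
  refine ⟨(h : SpecialLinearGroup n k ⧸ Subgroup.center (SpecialLinearGroup n k)),
    fun x => Quotient.liftOn' x f ?_, q, ?_, hq, ?_, h0⟩
  · intro a b hab
    have h1 := QuotientGroup.leftRel_apply.1 hab
    have h2 : b = a * (a⁻¹ * b) := by group
    rw [h2, hz _ h1]
  · exact hf.quotient_liftOn' _
  · intro x
    refine QuotientGroup.induction_on x fun x => ?_
    exact hx x

end sl

end Vale.Agent.P092.H136
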