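import Mathlib
import Vale.Agent.P092.H136.Conj

/-!
P092 (helper136), block (5)/(6) of project B: a bounded finitely additive function `F(C, C')` of two
compact open sets of a totally disconnected group with the recurrence property, which is invariant
under left and right translations, vanishes for disjoint `C, C'`.
-/

set_option linter.all false

namespace Vale.Agent.P092.H136

open Topology Filter

variable {G : Type} [Group G] [TopologicalSpace G] [IsTopologicalGroup G] [T2Space G]

/-- Every element different from `1` has a neighbourhood with infinitely many pairwise disjoint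
conjugates. -/
def RecS (G : Type) [Group G] [TopologicalSpace G] : Prop :=
  ∀ z : G, z ≠ 1 → ∃ E ∈ 𝓝 z, ∃ a : ℕ → G, Pairwise fun i j =>
    Disjoint ((fun y => a i * y * (a i)⁻¹) '' E) ((fun y => a j * y * (a j)⁻¹) '' E)

/-- compact open -/
def CO {X : Type} [TopologicalSpace X] (A : Set X) : Prop := IsCompact A ∧ IsOpen A

/-- left translate -/
def lt (g : G) (A : Set G) : Set G := (fun x => g * x) '' A
/-- right translate -/
def rt (A : Set G) (y : G) : Set G := (fun x => x * y) '' A

theorem mem_lt {g x : G} {A : Set G} : x ∈ lt g A ↔ g⁻¹ * x ∈ A := by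
  constructor
  · rintro ⟨a, ha, rfl⟩
    simpa using ha
  · intro h
    exact ⟨g⁻¹ * x, h, by simp⟩

theorem mem_rt {y x : G} {A : Set G} : x ∈ rt A y ↔ x * y⁻¹ ∈ A := by
  constructor
  · rintro ⟨a, ha, rfl⟩
    simpa using ha
  · intro h
    exact ⟨x * y⁻¹, h, by simp⟩

theorem CO.lt {A : Set G} (h : CO A) (g : G) : CO (lt g A) :=
  ⟨h.1.image (continuous_const.mul continuous_id), (Homeomorph.mulLeft g).isOpenMap _ h.2⟩
theorem CO.rt {A : Set G} (h : CO A) (g : G) : CO (rt A g) :=
  ⟨h.1.image (continuous_id.mul continuous_const), (Homeomorph.mulRight g).isOpenMap _ h.2⟩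
theorem CO.union {X : Type} [TopologicalSpace X] {A B : Set X} (h : CO A) (h' : CO B) :
    CO (A ∪ B) := ⟨h.1.union h'.1, h.2.union h'.2⟩
theorem CO.inter {A B : Set G} (h : CO A) (h' : CO B) : CO (A ∩ B) :=
  ⟨h.1.inter h'.1, h.2.inter h'.2⟩
theorem CO.diff {A B : Set G} (h : CO A) (h' : CO B) : CO (A \ B) :=
  ⟨h.1.diff h'.2, h.2.sdiff h'.1.isClosed⟩
theorem CO.empty {X : Type} [TopologicalSpace X] : CO (∅ : Set X) := ⟨isCompact_empty, isOpen_empty⟩

theorem CO.biUnion {X ι : Type} [TopologicalSpace X] {s : Finset ι} {A : ι → Set X}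
    (h : ∀ i ∈ s, CO (A i)) : CO (⋃ i ∈ s, A i) :=
  ⟨s.isCompact_biUnion fun i hi => (h i hi).1, isOpen_biUnion fun i hi => (h i hi).2⟩

/-- A finitely additive function on the compact open sets. -/
structure FAdd {X : Type} [TopologicalSpace X] (Φ : Set X → ℝ) : Prop where
  nonneg : ∀ A, CO A → 0 ≤ Φ A
  add : ∀ A B, CO A → CO B → Disjoint A B → Φ (A ∪ B) = Φ A + Φ B

namespace FAdd
variable {X : Type} [TopologicalSpace X] {Φ : Set X → ℝ} (h : FAdd Φ)
include h

theorem empty : Φ ∅ = 0 := by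
  have := h.add ∅ ∅ CO.empty CO.empty (Set.disjoint_empty _)
  rw [Set.union_empty] at this
  linarith

theorem biUnion {ι : Type} (s : Finset ι) (A : ι → Set X) (hA : ∀ i ∈ s, CO (A i))
    (hd : (s : Set ι).PairwiseDisjoint A) : Φ (⋃ i ∈ s, A i) = ∑ i ∈ s, Φ (A i) := by
  classical
  induction s using Finset.induction_on with
  | empty => simp [h.empty]
  | insert a s ha ih =>
    rw [Finset.set_biUnion_insert, Finset.sum_insert ha]
    have h1 : Disjoint (A a) (⋃ i ∈ s, A i) := by
      rw [Set.disjoint_iUnion₂_right]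
      intro i hi
      exact hd (by simp) (by simp [hi]) (fun e => ha (e ▸ hi))
    rw [h.add _ _ (hA a (Finset.mem_insert_self _ _))
      (CO.biUnion fun i hi => hA i (Finset.mem_insert_of_mem hi)) h1,
      ih (fun i hi => hA i (Finset.mem_insert_of_mem hi))
        (hd.subset (by simp))]

end FAdd

theorem FAdd.mono {Φ : Set G → ℝ} (h : FAdd Φ) {A B : Set G} (hA : CO A) (hB : CO B) (hAB : A ⊆ B) :
    Φ A ≤ Φ B := by
  have h1 := h.add A (B \ A) hA (hB.diff hA) Set.disjoint_sdiff_right
  rw [Set.union_diff_cancel hAB] at h1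
  have h2 := h.nonneg (B \ A) (hB.diff hA)
  linarith

/-- A finite family of sets covering `C` with `Φ = 0`. -/
theorem FAdd.zero_of_cover {Φ : Set G → ℝ} (h : FAdd Φ) {ι : Type} (s : Finset ι) (A : ι → Set G)
    (hA : ∀ i ∈ s, CO (A i)) (h0 : ∀ i ∈ s, Φ (A i) = 0) {C : Set G} (hC : CO C)
    (hs : C ⊆ ⋃ i ∈ s, A i) : Φ C = 0 := by
  classical
  have key : Φ (⋃ i ∈ s, A i) ≤ 0 := by
    clear hs
    induction s using Finset.induction_on with
    | empty => simp [h.empty]
    | insert a s ha ih =>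
      rw [Finset.set_biUnion_insert]
      have hU : CO (⋃ i ∈ s, A i) := CO.biUnion fun i hi => hA i (Finset.mem_insert_of_mem hi)
      have ha' := hA a (Finset.mem_insert_self _ _)
      have h1 : A a ∪ (⋃ i ∈ s, A i) = A a ∪ ((⋃ i ∈ s, A i) \ A a) := by simp
      rw [h1, h.add _ _ ha' (hU.diff ha') Set.disjoint_sdiff_right,
        h0 a (Finset.mem_insert_self _ _), zero_add]
      exact (h.mono (hU.diff ha') hU Set.diff_subset).trans
        (ih (fun i hi => hA i (Finset.mem_insert_of_mem hi))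
          (fun i hi => h0 i (Finset.mem_insert_of_mem hi)))
  exact le_antisymm ((h.mono hC (CO.biUnion hA) hs).trans key) (h.nonneg _ hC)

/-- cosets of a compact open subgroup in a bigger one -/
theorem FAdd.index {Φ : Set G → ℝ} (h : FAdd Φ) {L L' : Subgroup G} (hL : CO (L : Set G))
    (hL' : CO (L' : Set G)) (hLL : L' ≤ L) (hinv : ∀ l ∈ L, Φ (lt l (L' : Set G)) = Φ (L' : Set G)) :
    Φ (L : Set G) = (L'.relIndex L : ℝ) * Φ (L' : Set G) := by
  classical
  have hfin : Finite (L ⧸ (L'.subgroupOf L)) := by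
    have : CompactSpace L := isCompact_iff_compactSpace.1 hL.1
    have hop : IsOpen ((L'.subgroupOf L : Subgroup L) : Set L) := hL'.2.preimage continuous_subtype_val
    exact Subgroup.quotient_finite_of_isOpen _ hop
  haveI : Fintype (L ⧸ (L'.subgroupOf L)) := Fintype.ofFinite _
  have h1 : (L : Set G) = ⋃ q ∈ (Finset.univ : Finset (L ⧸ (L'.subgroupOf L))),
      lt ((q.out : L) : G) (L' : Set G) := by
    ext x
    simp only [Finset.mem_univ, Set.iUnion_true, Set.mem_iUnion, mem_lt]
    constructor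
    · intro hx
      refine ⟨((⟨x, hx⟩ : L) : L ⧸ (L'.subgroupOf L)), ?_⟩
      have h2 : ((((⟨x, hx⟩ : L) : L ⧸ (L'.subgroupOf L)).out : L) : L ⧸ (L'.subgroupOf L)) =
        ((⟨x, hx⟩ : L) : L ⧸ (L'.subgroupOf L)) := Quotient.out_eq' _
      have h3 := QuotientGroup.eq.1 h2
      rw [Subgroup.mem_subgroupOf] at h3
      exact h3
    · rintro ⟨q, hq⟩
      have h2 : x = ((q.out : L) : G) * (((q.out : L) : G)⁻¹ * x) := by group
      rw [h2]
      exact L.mul_mem (q.out).2 (hLL hq)
  have h2 : Φ (L : Set G) = ∑ q : L ⧸ (L'.subgroupOf L), Φ (lt ((q.out : L) : G) (L' : Set G)) := by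
    conv_lhs => rw [h1]
    refine h.biUnion _ _ (fun q _ => hL'.lt _) ?_
    intro a _ b _ hab
    rw [Function.onFun, Set.disjoint_left]
    intro x hxa hxb
    rw [mem_lt] at hxa hxb
    apply hab
    have h3 : (((a.out : L) : G)⁻¹ * ((b.out : L) : G)) ∈ L' := by
      have : ((a.out : L) : G)⁻¹ * ((b.out : L) : G) =
        (((a.out : L) : G)⁻¹ * x) * (((b.out : L) : G)⁻¹ * x)⁻¹ := by group
      rw [this]
      exact L'.mul_mem hxa (L'.inv_mem hxb)
    have h4 : ((a.out : L) : L ⧸ (L'.subgroupOf L)) = ((b.out : L) : L ⧸ (L'.subgroupOf L)) :=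
      QuotientGroup.eq.2 (by rw [Subgroup.mem_subgroupOf]; exact h3)
    rw [← Quotient.out_eq' a, ← Quotient.out_eq' b]
    exact h4
  rw [h2, Finset.sum_congr rfl (fun q _ => hinv _ (q.out).2), Finset.sum_const, Finset.card_univ,
    nsmul_eq_mul]
  congr 2
  rw [Subgroup.relIndex, Subgroup.index, Nat.card_eq_fintype_card]

/-- A bounded, bi-invariant, finitely additive function of two compact open sets. -/
structure BiInv (F : Set G → Set G → ℝ) (vol : Set G → ℝ) : Prop where
  addl : ∀ C', CO C' → FAdd fun C => F C C'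
  addr : ∀ C, CO C → FAdd fun C' => F C C'
  left : ∀ g C C', CO C → CO C' → F (lt g C) (lt g C') = F C C'
  right : ∀ y C C', CO C → CO C' → F (rt C y) (rt C' y) = F C C'
  vadd : FAdd vol
  vleft : ∀ g C, CO C → vol (lt g C) = vol C
  vright : ∀ y C, CO C → vol (rt C y) = vol C
  vpos : ∀ C, CO C → C.Nonempty → 0 < vol C
  bound : ∃ c : ℝ, ∀ (L : Subgroup G) C', CO (L : Set G) → CO C' → F (L : Set G) C' ≤ c * vol (L : Set G)

/-- conjugate set -/
def cj (g : G) (A : Set G) : Set G := lt g (rt A g⁻¹)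

theorem mem_cj {g x : G} {A : Set G} : x ∈ cj g A ↔ g⁻¹ * x * g ∈ A := by
  rw [cj, mem_lt, mem_rt, inv_inv]

theorem CO.cj {A : Set G} (h : CO A) (g : G) : CO (cj g A) := (h.rt _).lt _

/-- conjugate subgroup -/
def cjS (g : G) (L : Subgroup G) : Subgroup G := L.map (MulAut.conj g).toMonoidHom

theorem coe_cjS (g : G) (L : Subgroup G) : (cjS g L : Set G) = cj g (L : Set G) := by
  ext x
  rw [mem_cj]
  constructor
  · rintro ⟨y, hy, rfl⟩
    have : g⁻¹ * ((MulAut.conj g).toMonoidHom y) * g = y := by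
      change g⁻¹ * (g * y * g⁻¹) * g = y
      group
    rw [this]
    exact hy
  · intro h
    refine ⟨g⁻¹ * x * g, h, ?_⟩
    change g * (g⁻¹ * x * g) * g⁻¹ = x
    group

/-- the functional form implies the form with sets -/
theorem Rec.toS (hR : Rec G) : RecS G := by
  intro z hz
  obtain ⟨b, f, q, hf, hq, hb, hfz⟩ := hR z hz
  have hq0 : 0 < q := by linarith
  obtain ⟨m, hm⟩ := pow_unbounded_of_one_lt (4 : ℝ) hq
  have hpow : ∀ (j : ℕ) x, f (b ^ j * x * (b ^ j)⁻¹) = q ^ j * f x := by
    intro j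
    induction j with
    | zero => intro x; simp
    | succ j ih =>
      intro x
      have e1 : b ^ (j + 1) * x * (b ^ (j + 1))⁻¹ = b * (b ^ j * x * (b ^ j)⁻¹) * b⁻¹ := by
        rw [pow_succ']; group
      rw [e1, hb, ih, pow_succ]; ring
  have hopen : IsOpen {x : G | f z / 2 < f x ∧ f x < 2 * f z} :=
    (isOpen_lt continuous_const hf).inter (isOpen_lt hf continuous_const)
  refine ⟨{x : G | f z / 2 < f x ∧ f x < 2 * f z},
    hopen.mem_nhds ⟨by linarith, by linarith⟩, fun j => b ^ (m * j), ?_⟩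
  have key : ∀ i j : ℕ, i < j → Disjoint
      ((fun y => b ^ (m * i) * y * (b ^ (m * i))⁻¹) '' {x : G | f z / 2 < f x ∧ f x < 2 * f z})
      ((fun y => b ^ (m * j) * y * (b ^ (m * j))⁻¹) '' {x : G | f z / 2 < f x ∧ f x < 2 * f z}) := by
    intro i j hij
    rw [Set.disjoint_left]
    rintro _ ⟨x, hx, rfl⟩ ⟨y, hy, e⟩
    have h1 := congrArg f e
    simp only at h1
    rw [hpow, hpow, pow_mul, pow_mul] at h1
    have h3 : (q ^ m) ^ (i + 1) ≤ (q ^ m) ^ j := by
      apply pow_le_pow_right₀ _ hij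
      exact one_le_pow₀ hq.le
    have h4 : 0 < (q ^ m) ^ i := by positivity
    have h5 : (q ^ m) ^ i * 4 < (q ^ m) ^ j := by
      refine lt_of_lt_of_le ?_ h3
      rw [pow_succ]
      exact mul_lt_mul_of_pos_left hm h4
    have h6 : (q ^ m) ^ i * 4 * f y < (q ^ m) ^ j * f y :=
      mul_lt_mul_of_pos_right h5 (by linarith [hy.1])
    have h7 : (q ^ m) ^ i * f x < (q ^ m) ^ i * (4 * f y) :=
      mul_lt_mul_of_pos_left (by linarith [hx.2, hy.1]) h4
    linarith
  intro i j hij
  rcases lt_or_gt_of_ne hij with h' | h'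
  · exact key i j h'
  · exact (key j i h').symm

section main

variable {F : Set G → Set G → ℝ} {vol : Set G → ℝ} (h : BiInv F vol)
include h

theorem BiInv.conj (g : G) {C C' : Set G} (hC : CO C) (hC' : CO C') :
    F (cj g C) (cj g C') = F C C' := by
  rw [cj, cj, h.left _ _ _ (hC.rt _) (hC'.rt _), h.right _ _ _ hC hC']

theorem BiInv.vconj (g : G) {C : Set G} (hC : CO C) : vol (cj g C) = vol C := by
  rw [cj, h.vleft _ _ (hC.rt _), h.vright _ _ hC]

/-- comparison of `F(L, A)` for two subgroups -/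
theorem BiInv.sub {L L' : Subgroup G} (hL : CO (L : Set G)) (hL' : CO (L' : Set G)) (hLL : L' ≤ L)
    {A : Set G} (hA : CO A) (hLA : ∀ l ∈ L, lt l A = A) :
    F (L' : Set G) A * vol (L : Set G) = F (L : Set G) A * vol (L' : Set G) := by
  have h1 := (h.addl A hA).index hL hL' hLL (fun l hl => by
    have := h.left l (L' : Set G) A hL' hA
    rw [hLA l hl] at this
    exact this)
  have h2 := h.vadd.index hL hL' hLL (fun l hl => h.vleft l _ hL')
  rw [h1, h2]
  ring

theorem BiInv.null_seq {L : Subgroup G} (hL : CO (L : Set G)) {A : Set G} (hA : CO A)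
    (hLA : ∀ l ∈ L, lt l A = A) (d : ℕ → G)
    (hdisj : ∀ i j, i < j → Disjoint (cj (d i) A) (cj (d j) A)) : F (L : Set G) A = 0 := by
  classical
  obtain ⟨c, hc⟩ := h.bound
  have hLne : (L : Set G).Nonempty := ⟨1, L.one_mem⟩
  have hvL := h.vpos _ hL hLne
  have key : ∀ N : ℕ, (N : ℝ) * F (L : Set G) A ≤ c * vol (L : Set G) := by
    intro N
    obtain ⟨M, hM⟩ : ∃ M : Subgroup G, M = ⨅ j : Fin N, cjS (d j) L ⊓ L := ⟨_, rfl⟩
    have hMco : CO ((M ⊓ L : Subgroup G) : Set G) := by
      have e4 : ((M ⊓ L : Subgroup G) : Set G) = (⋂ j : Fin N, (cj (d j) (L : Set G) ∩ (L : Set G))) ∩ (L : Set G) := by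
        rw [hM]
        ext x
        simp only [Subgroup.coe_inf, Subgroup.coe_iInf, coe_cjS]
      rw [e4]
      refine ⟨?_, ?_⟩
      · refine hL.1.inter_left ?_
        exact isClosed_iInter fun j => ((hL.cj _).1.isClosed.inter hL.1.isClosed)
      · exact (isOpen_iInter_of_finite fun j => ((hL.cj _).2.inter hL.2)).inter hL.2
    have hMne : ((M ⊓ L : Subgroup G) : Set G).Nonempty := ⟨1, Subgroup.one_mem _⟩
    have hvM := h.vpos _ hMco hMne
    have h1 : ∀ j : Fin N, F ((M ⊓ L : Subgroup G) : Set G) (cj (d j) A) * vol (L : Set G) =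
        F (L : Set G) A * vol ((M ⊓ L : Subgroup G) : Set G) := by
      intro j
      have hco : CO ((cjS (d j) L : Subgroup G) : Set G) := by rw [coe_cjS]; exact hL.cj _
      have h2 := h.sub (L := cjS (d j) L) (L' := M ⊓ L) hco hMco
        (by
          refine inf_le_left.trans ?_
          rw [hM]
          exact (iInf_le _ j).trans inf_le_left) (hA.cj (d j)) (by
          intro l hl
          have hl' : (d j)⁻¹ * l * d j ∈ L := by
            have : l ∈ (cjS (d j) L : Set G) := hl
            rw [coe_cjS, mem_cj] at this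
            exact this
          ext x
          rw [mem_lt, mem_cj, mem_cj]
          have h3 := hLA _ hl'
          constructor
          · intro hx
            rw [← h3, mem_lt]
            have : ((d j)⁻¹ * l * d j)⁻¹ * ((d j)⁻¹ * x * d j) = (d j)⁻¹ * (l⁻¹ * x) * d j := by group
            rw [this]
            exact hx
          · intro hx
            rw [← h3, mem_lt] at hx
            have : ((d j)⁻¹ * l * d j)⁻¹ * ((d j)⁻¹ * x * d j) = (d j)⁻¹ * (l⁻¹ * x) * d j := by group
            rw [this] at hx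
            exact hx)
      rw [coe_cjS, h.vconj _ hL, h.conj _ hL hA] at h2
      exact h2
    have h5 : ∑ j : Fin N, F ((M ⊓ L : Subgroup G) : Set G) (cj (d j) A) ≤
        c * vol ((M ⊓ L : Subgroup G) : Set G) := by
      have h6 := (h.addr _ hMco).biUnion (Finset.univ : Finset (Fin N)) (fun j => cj (d j) A)
        (fun j _ => hA.cj _) (by
          intro i _ j _ hij
          rcases lt_or_gt_of_ne (fun e => hij (Fin.ext e) : (i : ℕ) ≠ j) with h' | h'
          · exact hdisj _ _ h'
          · exact (hdisj _ _ h').symm)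
      rw [← h6]
      exact hc _ _ hMco (CO.biUnion fun j _ => hA.cj _)
    have h7 : (∑ j : Fin N, F ((M ⊓ L : Subgroup G) : Set G) (cj (d j) A)) * vol (L : Set G) =
        N * (F (L : Set G) A * vol ((M ⊓ L : Subgroup G) : Set G)) := by
      rw [Finset.sum_mul, Finset.sum_congr rfl (fun j _ => h1 j), Finset.sum_const, Finset.card_univ,
        Fintype.card_fin, nsmul_eq_mul]
    have h8 := mul_le_mul_of_nonneg_right h5 hvL.le
    rw [h7] at h8
    have h9 : (N * F (L : Set G) A) * vol ((M ⊓ L : Subgroup G) : Set G) ≤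
        (c * vol (L : Set G)) * vol ((M ⊓ L : Subgroup G) : Set G) := by linarith
    exact le_of_mul_le_mul_right h9 hvM
  have h0 := (h.addr _ hL).nonneg A hA
  by_contra hne
  have hpos : 0 < F (L : Set G) A := lt_of_le_of_ne h0 (Ne.symm hne)
  obtain ⟨N, hN⟩ := exists_nat_gt (c * vol (L : Set G) / F (L : Set G) A)
  rw [div_lt_iff₀ hpos] at hN
  linarith [key N]

end main

end Vale.Agent.P092.H136
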