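import Mathlib

/-!
P092 (helper136): the trace property of covariant fields of operators.
-/

set_option linter.all false

namespace Vale.Agent.P092.H136

open Topology Filter MeasureTheory ContinuousLinearMap
open scoped InnerProductSpace ENNReal

section

variable {H : Type} [NormedAddCommGroup H] [InnerProductSpace ℂ H] [CompleteSpace H]

theorem enorm_sq (x : H) : ‖x‖ₑ ^ 2 = ENNReal.ofReal (‖x‖ ^ 2) := by
  rw [← ofReal_norm_eq_enorm, ENNReal.ofReal_pow (norm_nonneg _)]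

theorem enorm_inner_symm (x y : H) : ‖⟪x, y⟫_ℂ‖ₑ = ‖⟪y, x⟫_ℂ‖ₑ := by
  rw [← inner_conj_symm, ← ofReal_norm_eq_enorm, ← ofReal_norm_eq_enorm, RCLike.norm_conj]

/-- A Parseval frame: `‖η‖² = ∑ |⟨R(d) ξ_i, η⟩|²`. -/
def Frm {ι Δ : Type} [Group Δ] (R : Δ →* (H →L[ℂ] H)) (ξ : ι → H) : Prop :=
  ∀ η : H, HasSum (fun p : ι × Δ => ‖⟪R p.2 (ξ p.1), η⟫_ℂ‖ ^ 2) (‖η‖ ^ 2)

variable {ι Δ : Type} [Fintype ι] [Group Δ] [Countable Δ] {R : Δ →* (H →L[ℂ] H)} {ξ : ι → H}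
  (hR : ∀ d, adjoint (R d) = R d⁻¹) (hF : Frm R ξ)

include hF in
omit [Countable Δ] in
theorem Frm.enorm (x : H) : ‖x‖ₑ ^ 2 = ∑ i, ∑' d, ‖⟪R d (ξ i), x⟫_ℂ‖ₑ ^ 2 := by
  have h1 := hF x
  rw [enorm_sq, ← h1.tsum_eq, ENNReal.ofReal_tsum_of_nonneg (fun i => by positivity) h1.summable]
  have h2 : ∀ p : ι × Δ, ENNReal.ofReal (‖⟪R p.2 (ξ p.1), x⟫_ℂ‖ ^ 2) = ‖⟪R p.2 (ξ p.1), x⟫_ℂ‖ₑ ^ 2 := by
    intro p
    rw [← ofReal_norm_eq_enorm, ENNReal.ofReal_pow (norm_nonneg _)]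
  simp_rw [h2]
  rw [ENNReal.tsum_prod (f := fun i d => ‖⟪R d (ξ i), x⟫_ℂ‖ₑ ^ 2), tsum_fintype]

variable {E : Type} [Group E] [MeasurableSpace E] [MeasurableMul E] (μ : Measure E)
  [μ.IsMulLeftInvariant] (ψ : Δ →* E)

include hR hF in
/-- **The trace property.** -/
theorem trace_symm {X : E → (H →L[ℂ] H)} (hX : ∀ d y, X (ψ d * y) = R d * X y * R d⁻¹)
    (hm : ∀ ζ η : H, Measurable fun y => ⟪ζ, X y η⟫_ℂ) :
    ∑ i, ∫⁻ y, ‖X y (ξ i)‖ₑ ^ 2 ∂μ = ∑ i, ∫⁻ y, ‖adjoint (X y) (ξ i)‖ₑ ^ 2 ∂μ := by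
  have hm1 : ∀ ζ η : H, Measurable fun y => ‖⟪ζ, X y η⟫_ℂ‖ₑ ^ 2 := fun ζ η =>
    (hm ζ η).enorm.pow_const 2
  have key : ∀ i j d, ∫⁻ y, ‖⟪R d (ξ j), X y (ξ i)⟫_ℂ‖ₑ ^ 2 ∂μ =
      ∫⁻ y, ‖⟪R d⁻¹ (ξ i), adjoint (X y) (ξ j)⟫_ℂ‖ₑ ^ 2 ∂μ := by
    intro i j d
    have h1 : ∀ y, ‖⟪R d (ξ j), X y (ξ i)⟫_ℂ‖ₑ ^ 2 =
        ‖⟪R d⁻¹ (ξ i), adjoint (X (ψ d⁻¹ * y)) (ξ j)⟫_ℂ‖ₑ ^ 2 := by
      intro y
      rw [adjoint_inner_right, hX, inv_inv]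
      have h2 : (R d⁻¹ * X y * R d) (R d⁻¹ (ξ i)) = R d⁻¹ (X y (ξ i)) := by
        have : (R d * R d⁻¹) = 1 := by rw [← map_mul, mul_inv_cancel, map_one]
        change R d⁻¹ (X y ((R d * R d⁻¹) (ξ i))) = _
        rw [this]; rfl
      rw [h2]
      have h3 : ⟪R d (ξ j), X y (ξ i)⟫_ℂ = ⟪ξ j, R d⁻¹ (X y (ξ i))⟫_ℂ := by
        rw [← hR d, adjoint_inner_right]
      rw [h3, enorm_inner_symm]
    simp_rw [h1]
    exact lintegral_mul_left_eq_self (fun y => ‖⟪R d⁻¹ (ξ i), adjoint (X y) (ξ j)⟫_ℂ‖ₑ ^ 2) (ψ d⁻¹)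
  have hm2 : ∀ ζ η : H, Measurable fun y => ‖⟪ζ, adjoint (X y) η⟫_ℂ‖ₑ ^ 2 := by
    intro ζ η
    have h6 : ∀ y, ‖⟪ζ, adjoint (X y) η⟫_ℂ‖ₑ ^ 2 = ‖⟪η, X y ζ⟫_ℂ‖ₑ ^ 2 := by
      intro y
      rw [adjoint_inner_right, enorm_inner_symm]
    simp_rw [h6]
    exact hm1 _ _
  have h4 : ∀ i, ∫⁻ y, ‖X y (ξ i)‖ₑ ^ 2 ∂μ = ∑ j, ∑' d, ∫⁻ y, ‖⟪R d (ξ j), X y (ξ i)⟫_ℂ‖ₑ ^ 2 ∂μ := by
    intro i
    simp_rw [hF.enorm]
    rw [lintegral_finset_sum' _ fun j _ => (Measurable.ennreal_tsum fun d => hm1 _ _).aemeasurable]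
    exact Finset.sum_congr rfl fun j _ => lintegral_tsum fun d => (hm1 _ _).aemeasurable
  have h5 : ∀ j, ∫⁻ y, ‖adjoint (X y) (ξ j)‖ₑ ^ 2 ∂μ =
      ∑ i, ∑' d, ∫⁻ y, ‖⟪R d (ξ i), adjoint (X y) (ξ j)⟫_ℂ‖ₑ ^ 2 ∂μ := by
    intro j
    simp_rw [hF.enorm]
    rw [lintegral_finset_sum' _ fun i _ => (Measurable.ennreal_tsum fun d => hm2 _ _).aemeasurable]
    exact Finset.sum_congr rfl fun i _ => lintegral_tsum fun d => (hm2 _ _).aemeasurable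
  simp_rw [h4, h5, key]
  rw [Finset.sum_comm]
  refine Finset.sum_congr rfl fun j _ => Finset.sum_congr rfl fun i _ => ?_
  exact (Equiv.inv Δ).tsum_eq (fun d => ∫⁻ y, ‖⟪R d (ξ i), adjoint (X y) (ξ j)⟫_ℂ‖ₑ ^ 2 ∂μ)

include hR hF in
/-- multiplication by unitaries commuting with `R` does not change the trace -/
theorem trace_mul {X : E → (H →L[ℂ] H)} (hX : ∀ d y, X (ψ d * y) = R d * X y * R d⁻¹)
    (hm : ∀ ζ η : H, Measurable fun y => ⟪ζ, X y η⟫_ℂ) {W : H →L[ℂ] H} (hW : W * adjoint W = 1)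
    (hWR : ∀ d, W * R d = R d * W) :
    ∑ i, ∫⁻ y, ‖X y (W (ξ i))‖ₑ ^ 2 ∂μ = ∑ i, ∫⁻ y, ‖X y (ξ i)‖ₑ ^ 2 ∂μ := by
  have h1 := trace_symm hR hF μ ψ (X := fun y => X y * W) (by
      intro d y
      change X (ψ d * y) * W = R d * (X y * W) * R d⁻¹
      rw [hX, mul_assoc (R d), mul_assoc, mul_assoc, mul_assoc, mul_assoc, hWR]) (by
      intro ζ η
      exact hm ζ (W η))
  have h2 := trace_symm hR hF μ ψ hX hm
  have h3 : ∀ i y, ‖adjoint (X y * W) (ξ i)‖ₑ ^ 2 = ‖adjoint (X y) (ξ i)‖ₑ ^ 2 := by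
    intro i y
    have h4 : adjoint (X y * W) = adjoint W * adjoint (X y) := adjoint_comp _ _
    rw [h4]
    change ‖adjoint W (adjoint (X y) (ξ i))‖ₑ ^ 2 = _
    have h5 : ‖adjoint W (adjoint (X y) (ξ i))‖ = ‖adjoint (X y) (ξ i)‖ := by
      have h6 : ‖adjoint W (adjoint (X y) (ξ i))‖ ^ 2 = ‖adjoint (X y) (ξ i)‖ ^ 2 := by
        have h7 : ⟪adjoint W (adjoint (X y) (ξ i)), adjoint W (adjoint (X y) (ξ i))⟫_ℂ =
            ⟪adjoint (X y) (ξ i), adjoint (X y) (ξ i)⟫_ℂ := by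
          rw [adjoint_inner_left]
          change ⟪adjoint (X y) (ξ i), (W * adjoint W) (adjoint (X y) (ξ i))⟫_ℂ = _
          rw [hW]; rfl
        rw [inner_self_eq_norm_sq_to_K, inner_self_eq_norm_sq_to_K] at h7
        exact_mod_cast h7
      exact (sq_eq_sq₀ (norm_nonneg _) (norm_nonneg _)).1 h6
    rw [← ofReal_norm_eq_enorm, ← ofReal_norm_eq_enorm, h5]
  simp_rw [h3] at h1
  rw [h2, ← h1]
  rfl

include hR hF in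
omit [Countable Δ] in
/-- an operator which vanishes on all `R(d) ξ_i` is zero -/
theorem Frm.eq_zero {Y : H →L[ℂ] H} (h : ∀ d i, Y (R d (ξ i)) = 0) : Y = 0 := by
  have h1 : adjoint Y = 0 := by
    ext1 η
    have h2 := hF (adjoint Y η)
    have h3 : (fun p : ι × Δ => ‖⟪R p.2 (ξ p.1), adjoint Y η⟫_ℂ‖ ^ 2) = fun _ => 0 := by
      funext p
      rw [adjoint_inner_right, h, inner_zero_left, norm_zero]; norm_num
    rw [h3] at h2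
    have h4 := h2.unique hasSum_zero
    rw [sq_eq_zero_iff, norm_eq_zero] at h4
    rw [h4]; rfl
  rw [← adjoint_adjoint Y, h1, map_zero]

end

end Vale.Agent.P092.H136
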