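import Mathlib
import Vale.Agent.P092.H136.Bi

/-!
P092 (helper136), block (5)/(6) of project B: the vanishing theorem for bi-invariant bounded
functions of two compact open sets.
-/

set_option linter.all false

namespace Vale.Agent.P092.H136

open Topology Filter

variable {G : Type} [Group G] [TopologicalSpace G] [IsTopologicalGroup G] [T2Space G]

/-- There are arbitrarily small compact open subgroups. -/
def SmallCO (G : Type) [Group G] [TopologicalSpace G] : Prop :=
  ∀ U ∈ 𝓝 (1 : G), ∃ L : Subgroup G, CO (L : Set G) ∧ (L : Set G) ⊆ U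

/-- double translate `L z L'` -/
theorem CO.dbl {L L' : Subgroup G} (hL : CO (L : Set G)) (hL' : CO (L' : Set G)) (z : G) :
    CO {x : G | ∃ l ∈ L, ∃ l' ∈ L', x = l * z * l'} := by
  have h1 : {x : G | ∃ l ∈ L, ∃ l' ∈ L', x = l * z * l'} =
      (fun p : G × G => p.1 * z * p.2) '' ((L : Set G) ×ˢ (L' : Set G)) := by
    ext x
    constructor
    · rintro ⟨l, hl, l', hl', rfl⟩
      exact ⟨(l, l'), ⟨hl, hl'⟩, rfl⟩
    · rintro ⟨⟨l, l'⟩, ⟨hl, hl'⟩, rfl⟩
      exact ⟨l, hl, l', hl', rfl⟩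
  refine ⟨?_, ?_⟩
  · rw [h1]
    exact (hL.1.prod hL'.1).image (by fun_prop)
  · have h2 : {x : G | ∃ l ∈ L, ∃ l' ∈ L', x = l * z * l'} = ⋃ l : L, Vale.Agent.P092.H136.lt ((l : G) * z) (L' : Set G) := by
      ext x
      simp only [Set.mem_iUnion, mem_lt]
      constructor
      · rintro ⟨l, hl, l', hl', rfl⟩
        refine ⟨⟨l, hl⟩, ?_⟩
        have : ((l : G) * z)⁻¹ * (l * z * l') = l' := by group
        rw [this]
        exact hl'
      · rintro ⟨l, hl⟩
        exact ⟨l, l.2, _, hl, by group⟩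
    rw [h2]
    exact isOpen_iUnion fun l => (hL'.lt _).2

theorem lt_lt (a b : G) (A : Set G) : lt a (lt b A) = lt (a * b) A := by
  ext x; simp only [mem_lt]; rw [mul_inv_rev, mul_assoc]

section main

variable {F : Set G → Set G → ℝ} {vol : Set G → ℝ} (h : BiInv F vol)
include h

/-- local vanishing -/
theorem BiInv.local (hR : RecS G) (hs : SmallCO G) {x x' : G} (hxx : x ≠ x') :
    ∃ L : Subgroup G, CO (L : Set G) ∧ F (lt x (L : Set G)) (lt x' (L : Set G)) = 0 := by
  have hz : x⁻¹ * x' ≠ 1 := by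
    intro e
    apply hxx
    rw [inv_mul_eq_one] at e
    exact e
  obtain ⟨E, hE, a, ha⟩ := hR _ hz
  have hcont : Continuous fun p : G × G => p.1 * (x⁻¹ * x') * p.2 := by fun_prop
  have hmem : (fun p : G × G => p.1 * (x⁻¹ * x') * p.2) ⁻¹' E ∈ 𝓝 ((1 : G), (1 : G)) :=
    hcont.continuousAt.preimage_mem_nhds (by simpa using hE)
  rw [nhds_prod_eq] at hmem
  obtain ⟨U, hU, V, hV, hUV⟩ := Filter.mem_prod_iff.1 hmem
  obtain ⟨L, hL, hLU⟩ := hs (U ∩ V) (Filter.inter_mem hU hV)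
  refine ⟨L, hL, ?_⟩
  have h1 := h.left x⁻¹ (lt x (L : Set G)) (lt x' (L : Set G)) (hL.lt _) (hL.lt _)
  rw [lt_lt, lt_lt, inv_mul_cancel] at h1
  have h2 : lt (1 : G) (L : Set G) = (L : Set G) := by
    ext y; rw [mem_lt]; simp
  rw [h2] at h1
  rw [← h1]
  have hA := hL.dbl hL (x⁻¹ * x')
  have hAE : {y : G | ∃ l ∈ L, ∃ l' ∈ L, y = l * (x⁻¹ * x') * l'} ⊆ E := by
    rintro y ⟨l, hl, l', hl', rfl⟩
    exact hUV (show (l, l') ∈ U ×ˢ V from ⟨(hLU hl).1, (hLU hl').2⟩)
  have h3 := h.null_seq hL hA (by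
      intro l hl
      ext y
      rw [mem_lt]
      constructor
      · rintro ⟨m, hm, m', hm', e⟩
        refine ⟨l * m, L.mul_mem hl hm, m', hm', ?_⟩
        have : y = l * (l⁻¹ * y) := by group
        rw [this, e]
        group
      · rintro ⟨m, hm, m', hm', e⟩
        refine ⟨l⁻¹ * m, L.mul_mem (L.inv_mem hl) hm, m', hm', ?_⟩
        rw [e]
        group) a (by
      intro i j hij
      have h5 := ha hij.ne
      have h6 : ∀ (g : G) (B : Set G), B ⊆ E → cj g B ⊆ (fun y => g * y * g⁻¹) '' E := by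
        intro g B hB y hy
        rw [mem_cj] at hy
        exact ⟨_, hB hy, by group⟩
      exact h5.mono (h6 _ _ hAE) (h6 _ _ hAE))
  have h4 := (h.addr (L : Set G) hL).mono (hL.lt (x⁻¹ * x')) hA (by
    intro y hy
    rw [mem_lt] at hy
    exact ⟨1, L.one_mem, _, hy, by group⟩)
  rw [h3] at h4
  exact le_antisymm h4 ((h.addr (L : Set G) hL).nonneg _ (hL.lt _))

theorem BiInv.monol {A B C' : Set G} (hA : CO A) (hB : CO B) (hC' : CO C') (hAB : A ⊆ B) :
    F A C' ≤ F B C' := (h.addl C' hC').mono hA hB hAB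
theorem BiInv.monor {A B C : Set G} (hA : CO A) (hB : CO B) (hC : CO C) (hAB : A ⊆ B) :
    F C A ≤ F C B := (h.addr C hC).mono hA hB hAB

/-- **Vanishing off the diagonal.** -/
theorem BiInv.vanish (hR : RecS G) (hs : SmallCO G) {C C' : Set G} (hC : CO C) (hC' : CO C')
    (hd : Disjoint C C') : F C C' = 0 := by
  classical
  -- fix the first point
  have step : ∀ x ∈ C, ∃ L : Subgroup G, CO (L : Set G) ∧ F (lt x (L : Set G)) C' = 0 := by
    intro x hx
    have hloc : ∀ x' : G, ∃ L : Subgroup G, CO (L : Set G) ∧ (x' ∈ C' →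
        F (lt x (L : Set G)) (lt x' (L : Set G)) = 0) := by
      intro x'
      by_cases hx' : x' ∈ C'
      · have hne : x ≠ x' := fun e => Set.disjoint_left.1 hd hx (e ▸ hx')
        obtain ⟨L, hL, h0⟩ := h.local hR hs hne
        exact ⟨L, hL, fun _ => h0⟩
      · obtain ⟨L, hL, -⟩ := hs Set.univ Filter.univ_mem
        exact ⟨L, hL, fun h => absurd h hx'⟩
    choose L hL h0 using hloc
    obtain ⟨t, ht, hcov⟩ := hC'.1.elim_nhds_subcover (fun x' => lt x' (L x' : Set G)) (fun x' _ =>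
      ((hL x').lt x').2.mem_nhds (by rw [mem_lt, inv_mul_cancel]; exact (L x').one_mem))
    obtain ⟨L0, hL0, -⟩ := hs Set.univ Filter.univ_mem
    obtain ⟨M, hM⟩ : ∃ M : Subgroup G, M = (⨅ i : t, L (i : G)) ⊓ L0 := ⟨_, rfl⟩
    have hMco : CO (M : Set G) := by
      have e : (M : Set G) = (⋂ i : t, (L (i : G) : Set G)) ∩ (L0 : Set G) := by
        rw [hM]; simp
      rw [e]
      exact ⟨hL0.1.inter_left (isClosed_iInter fun i => (hL _).1.isClosed),
        (isOpen_iInter_of_finite fun i => (hL _).2).inter hL0.2⟩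
    refine ⟨M, hMco, ?_⟩
    refine (h.addr _ (hMco.lt x)).zero_of_cover t (fun x' => lt x' (L x' : Set G))
      (fun i _ => (hL i).lt i) ?_ hC' hcov
    intro i hi
    refine le_antisymm ?_ ((h.addr _ (hMco.lt x)).nonneg _ ((hL i).lt i))
    rw [← h0 i (ht i hi)]
    refine h.monol (hMco.lt x) ((hL i).lt x) ((hL i).lt i) ?_
    intro y hy
    rw [mem_lt] at hy ⊢
    have : M ≤ L i := by rw [hM]; exact inf_le_left.trans (iInf_le _ (⟨i, hi⟩ : t))
    exact this hy
  have hloc : ∀ x : G, ∃ L : Subgroup G, CO (L : Set G) ∧ (x ∈ C → F (lt x (L : Set G)) C' = 0) := by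
    intro x
    by_cases hx : x ∈ C
    · obtain ⟨L, hL, h0⟩ := step x hx
      exact ⟨L, hL, fun _ => h0⟩
    · obtain ⟨L, hL, -⟩ := hs Set.univ Filter.univ_mem
      exact ⟨L, hL, fun h => absurd h hx⟩
  choose L hL h0 using hloc
  obtain ⟨t, ht, hcov⟩ := hC.1.elim_nhds_subcover (fun x => lt x (L x : Set G)) (fun x _ =>
      ((hL x).lt x).2.mem_nhds (by rw [mem_lt, inv_mul_cancel]; exact (L x).one_mem))
  exact (h.addl _ hC').zero_of_cover t (fun x => lt x (L x : Set G))
      (fun i _ => (hL i).lt i) (fun i hi => h0 i (ht i hi)) hC hcov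

end main

end Vale.Agent.P092.H136
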