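import Mathlib
import Vale.Agent.P092.H136.Van
import Vale.Agent.P092.H136.Trace

/-!
P092 (helper136): additive covariant families of projections indexed by compact open sets.
-/

set_option linter.all false

namespace Vale.Agent.P092.H136

open Topology Filter MeasureTheory ContinuousLinearMap
open scoped InnerProductSpace ENNReal Pointwise

section stab

variable {G : Type} [Group G] [TopologicalSpace G] [IsTopologicalGroup G] [T2Space G]

theorem rt_rt (A : Set G) (a b : G) : rt (rt A a) b = rt A (a * b) := by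
  ext x; simp only [mem_rt]; rw [mul_inv_rev, mul_assoc]
theorem lt_rt (A : Set G) (a b : G) : lt a (rt A b) = rt (lt a A) b := by
  ext x; simp only [mem_rt, mem_lt]; rw [mul_assoc]
theorem lt_one (A : Set G) : lt 1 A = A := by ext x; rw [mem_lt]; simp
theorem rt_one (A : Set G) : rt A 1 = A := by ext x; rw [mem_rt]; simp
theorem lt_union (g : G) (A B : Set G) : lt g (A ∪ B) = lt g A ∪ lt g B := Set.image_union _ _ _
theorem rt_union (g : G) (A B : Set G) : rt (A ∪ B) g = rt A g ∪ rt B g := Set.image_union _ _ _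
theorem lt_disj (g : G) {A B : Set G} (h : Disjoint A B) : Disjoint (lt g A) (lt g B) := by
  rw [Set.disjoint_left] at h ⊢
  intro x hx hx'
  rw [mem_lt] at hx hx'
  exact h hx hx'
theorem rt_disj (g : G) {A B : Set G} (h : Disjoint A B) : Disjoint (rt A g) (rt B g) := by
  rw [Set.disjoint_left] at h ⊢
  intro x hx hx'
  rw [mem_rt] at hx hx'
  exact h hx hx'

theorem stabL_one {C : Set G} (hC : CO C) : ∀ᶠ u in 𝓝 (1 : G), lt u C = C := by
  obtain ⟨V, hV, hVC⟩ := compact_open_separated_mul_left hC.1 hC.2 (subset_refl C)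
  have h1 : ∀ u ∈ V, lt u C ⊆ C := by
    intro u hu
    rintro _ ⟨x, hx, rfl⟩
    exact hVC (Set.mul_mem_mul hu hx)
  have hV' : V⁻¹ ∈ 𝓝 (1 : G) := inv_mem_nhds_one G hV
  filter_upwards [hV, hV'] with u hu hu'
  refine Set.Subset.antisymm (h1 u hu) ?_
  intro x hx
  rw [mem_lt]
  exact h1 _ hu' ⟨x, hx, rfl⟩

theorem stabR_one {C : Set G} (hC : CO C) : ∀ᶠ u in 𝓝 (1 : G), rt C u = C := by
  obtain ⟨V, hV, hVC⟩ := compact_open_separated_mul_right hC.1 hC.2 (subset_refl C)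
  have h1 : ∀ u ∈ V, rt C u ⊆ C := by
    intro u hu
    rintro _ ⟨x, hx, rfl⟩
    exact hVC (Set.mul_mem_mul hx hu)
  have hV' : V⁻¹ ∈ 𝓝 (1 : G) := inv_mem_nhds_one G hV
  filter_upwards [hV, hV'] with u hu hu'
  refine Set.Subset.antisymm (h1 u hu) ?_
  intro x hx
  rw [mem_rt]
  exact h1 _ hu' ⟨x, hx, rfl⟩

theorem stabL {C : Set G} (hC : CO C) (h : G) : ∀ᶠ h' in 𝓝 h, lt h' C = lt h C := by
  have h1 : Tendsto (fun h' : G => h⁻¹ * h') (𝓝 h) (𝓝 1) := by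
    have : Continuous fun h' : G => h⁻¹ * h' := by fun_prop
    have h2 := this.tendsto h
    simpa using h2
  filter_upwards [h1.eventually (stabL_one hC)] with h' hh
  have : h' = h * (h⁻¹ * h') := by group
  rw [this, ← lt_lt, hh]

theorem stabR {C : Set G} (hC : CO C) (y : G) : ∀ᶠ y' in 𝓝 y, rt C y'⁻¹ = rt C y⁻¹ := by
  have h1 : Tendsto (fun y' : G => y'⁻¹ * y) (𝓝 y) (𝓝 1) := by
    have : Continuous fun y' : G => y'⁻¹ * y := by fun_prop
    have h2 := this.tendsto y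
    simpa using h2
  filter_upwards [h1.eventually (stabR_one hC)] with y' hh
  have : y'⁻¹ = (y'⁻¹ * y) * y⁻¹ := by group
  rw [this, ← rt_rt, hh]

theorem FAdd.le_sum {Φ : Set G → ℝ} (h : FAdd Φ) {ι : Type} (s : Finset ι) (A : ι → Set G)
    (hA : ∀ i ∈ s, CO (A i)) {C : Set G} (hC : CO C) (hs : C ⊆ ⋃ i ∈ s, A i) :
    Φ C ≤ ∑ i ∈ s, Φ (A i) := by
  classical
  have key : Φ (⋃ i ∈ s, A i) ≤ ∑ i ∈ s, Φ (A i) := by
    clear hs
    induction s using Finset.induction_on with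
    | empty => simp [h.empty]
    | insert a s ha ih =>
      rw [Finset.set_biUnion_insert, Finset.sum_insert ha]
      have hU : CO (⋃ i ∈ s, A i) := CO.biUnion fun i hi => hA i (Finset.mem_insert_of_mem hi)
      have ha' := hA a (Finset.mem_insert_self _ _)
      have h1 : A a ∪ (⋃ i ∈ s, A i) = A a ∪ ((⋃ i ∈ s, A i) \ A a) := by simp
      rw [h1, h.add _ _ ha' (hU.diff ha') Set.disjoint_sdiff_right]
      have h2 := (h.mono (hU.diff ha') hU Set.diff_subset).trans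
        (ih (fun i hi => hA i (Finset.mem_insert_of_mem hi)))
      linarith
  exact (h.mono hC (CO.biUnion hA) hs).trans key

end stab

variable {H : Type} [NormedAddCommGroup H] [InnerProductSpace ℂ H] [CompleteSpace H]

/-- An additive family of projections indexed by the compact open subsets of `G`, covariant for
left translations (`V`, `p`) and for right translations (`R`, `ψ`). -/
structure Fam {G Γ Δ : Type} [Group G] [TopologicalSpace G] [Group Γ] [Group Δ]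
    (V : Γ →* (H →L[ℂ] H)) (R : Δ →* (H →L[ℂ] H)) (p : Γ →* G) (ψ : Δ →* G)
    (P : Set G → (H →L[ℂ] H)) : Prop where
  adj : ∀ C, CO C → adjoint (P C) = P C
  idem : ∀ C, CO C → P C * P C = P C
  add : ∀ C C', CO C → CO C' → Disjoint C C' → P (C ∪ C') = P C + P C'
  covV : ∀ g C, CO C → V g * P C * V g⁻¹ = P (lt (p g) C)
  covR : ∀ d C, CO C → R d * P C * R d⁻¹ = P (rt C (ψ d)⁻¹)
  nondeg : ∀ ζ, (∀ C, CO C → P C ζ = 0) → ζ = 0

theorem norm_proj_le {Q : H →L[ℂ] H} (ha : adjoint Q = Q) (hi : Q * Q = Q) (ζ : H) :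
    ‖Q ζ‖ ≤ ‖ζ‖ := by
  have h1 : ⟪Q ζ, Q ζ⟫_ℂ = ⟪ζ, Q ζ⟫_ℂ := by
    conv_lhs => rw [← ha, adjoint_inner_left, ha]
    change ⟪ζ, (Q * Q) ζ⟫_ℂ = _
    rw [hi]
  have h2 : ‖Q ζ‖ ^ 2 = ‖⟪ζ, Q ζ⟫_ℂ‖ := by
    rw [← h1, inner_self_eq_norm_sq_to_K]
    simp
  have h3 : ‖⟪ζ, Q ζ⟫_ℂ‖ ≤ ‖ζ‖ * ‖Q ζ‖ := norm_inner_le_norm _ _
  by_cases h0 : ‖Q ζ‖ = 0
  · rw [h0]; exact norm_nonneg _
  · have h4 : 0 < ‖Q ζ‖ := lt_of_le_of_ne (norm_nonneg _) (Ne.symm h0)
    have h5 : ‖Q ζ‖ * ‖Q ζ‖ ≤ ‖ζ‖ * ‖Q ζ‖ := by rw [← sq, h2]; exact h3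
    exact le_of_mul_le_mul_right h5 h4

theorem norm_sub_proj_le {Q : H →L[ℂ] H} (ha : adjoint Q = Q) (hi : Q * Q = Q) (ζ : H) :
    ‖ζ - Q ζ‖ ≤ ‖ζ‖ := by
  have h1 : adjoint (1 - Q) = 1 - Q := by
    rw [map_sub, ha]
    congr 1
    exact ContinuousLinearMap.adjoint_id
  have h2 : (1 - Q) * (1 - Q) = 1 - Q := by
    rw [mul_sub, sub_mul, sub_mul, hi]
    simp
  exact norm_proj_le h1 h2 ζ

namespace Fam

variable {G Γ Δ : Type} [Group G] [TopologicalSpace G] [IsTopologicalGroup G] [T2Space G]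
  [Group Γ] [Group Δ] {V : Γ →* (H →L[ℂ] H)} {R : Δ →* (H →L[ℂ] H)} {p : Γ →* G} {ψ : Δ →* G}
  {P : Set G → (H →L[ℂ] H)} (h : Fam V R p ψ P)
include h

theorem orth {C C' : Set G} (hC : CO C) (hC' : CO C') (hd : Disjoint C C') : P C * P C' = 0 := by
  have h1 := h.idem _ (hC.union hC')
  rw [h.add _ _ hC hC' hd, mul_add, add_mul, add_mul, h.idem _ hC, h.idem _ hC'] at h1
  have h2 : P C' * P C = - (P C * P C') := by
    have h3 : P C' * P C + P C * P C' = 0 := by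
      have h4 : P C + P C' * P C + (P C * P C' + P C') = P C + P C' := h1
      have h5 : P C' * P C + P C * P C' = (P C + P C' * P C + (P C * P C' + P C')) - (P C + P C') := by abel
      rw [h5, h4, sub_self]
    exact eq_neg_of_add_eq_zero_left h3
  have h6 : P C * P C' * P C = - (P C * P C') := by
    rw [mul_assoc, h2, mul_neg, ← mul_assoc, h.idem _ hC]
  have h7 : P C * P C' * P C = P C * P C' := by
    have h8 : P C * P C' = - (P C' * P C) := by rw [h2, neg_neg]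
    calc P C * P C' * P C = - (P C' * P C) * P C := by rw [← h8]
      _ = - (P C' * P C) := by rw [neg_mul, mul_assoc, h.idem _ hC]
      _ = P C * P C' := h8.symm
  have h9 : (2 : ℂ) • (P C * P C') = 0 := by
    rw [two_smul]
    nth_rewrite 1 [← h7]
    rw [h6, neg_add_cancel]
  exact (smul_eq_zero.1 h9).resolve_left two_ne_zero

theorem norm_add (C C' : Set G) (hC : CO C) (hC' : CO C') (hd : Disjoint C C') (ζ : H) :
    ‖P (C ∪ C') ζ‖ ^ 2 = ‖P C ζ‖ ^ 2 + ‖P C' ζ‖ ^ 2 := by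
  rw [h.add _ _ hC hC' hd]
  change ‖P C ζ + P C' ζ‖ ^ 2 = _
  have h1 : ⟪P C ζ, P C' ζ⟫_ℂ = 0 := by
    rw [← h.adj C hC, adjoint_inner_left]
    change ⟪ζ, (P C * P C') ζ⟫_ℂ = 0
    rw [h.orth hC hC' hd]
    simp
  have h2 := norm_add_sq_eq_norm_sq_add_norm_sq_of_inner_eq_zero _ _ h1
  rw [sq, sq, sq]
  exact h2

theorem fadd (ζ : H) : FAdd fun C => ‖P C ζ‖ ^ 2 :=
  ⟨fun _ _ => by positivity, fun A B hA hB hd => h.norm_add A B hA hB hd ζ⟩

theorem le_mul {C C' : Set G} (hC : CO C) (hC' : CO C') (hCC : C ⊆ C') : P C' * P C = P C := by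
  have h1 : P C' = P C + P (C' \ C) := by
    rw [← h.add _ _ hC (hC'.diff hC) Set.disjoint_sdiff_right, Set.union_diff_cancel hCC]
  rw [h1, add_mul, h.idem _ hC, h.orth (hC'.diff hC) hC Set.disjoint_sdiff_left, add_zero]

/-- the projections `P C` tend to one -/
theorem nd (ζ : H) {ε : ℝ} (hε : 0 < ε) : ∃ C, CO C ∧ ‖ζ - P C ζ‖ < ε := by
  obtain ⟨W, hW⟩ : ∃ W : Submodule ℂ H, W =
    Submodule.span ℂ {v | ∃ C, CO C ∧ ∃ η, v = P C η} := ⟨_, rfl⟩
  have h1 : Wᗮ = ⊥ := by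
    rw [Submodule.eq_bot_iff]
    intro η hη
    refine h.nondeg η fun C hC => ?_
    have h2 : ⟪P C (P C η), η⟫_ℂ = 0 := by
      rw [Submodule.mem_orthogonal] at hη
      refine hη _ ?_
      rw [hW]
      exact Submodule.subset_span ⟨C, hC, _, rfl⟩
    have h3 : ⟪P C η, P C η⟫_ℂ = 0 := by
      rw [← h2]
      conv_rhs => rw [← h.adj C hC, adjoint_inner_left, h.adj C hC]
    exact inner_self_eq_zero.1 h3
  have h2 : (ζ : H) ∈ W.topologicalClosure := by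
    have := Submodule.topologicalClosure_eq_top_iff.2 h1
    rw [this]; trivial
  have h3 : ζ ∈ closure (W : Set H) := h2
  obtain ⟨s, hs, hd⟩ := Metric.mem_closure_iff.1 h3 (ε / 2) (half_pos hε)
  have h4 : ∀ s ∈ W, ∃ C, CO C ∧ P C s = s := by
    intro s hs
    rw [hW] at hs
    induction hs using Submodule.span_induction with
    | mem x hx =>
      obtain ⟨C, hC, η, rfl⟩ := hx
      refine ⟨C, hC, ?_⟩
      change (P C * P C) η = _
      rw [h.idem C hC]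
    | zero => exact ⟨∅, CO.empty, map_zero _⟩
    | add x y _ _ hx hy =>
      obtain ⟨C, hC, hx⟩ := hx
      obtain ⟨C', hC', hy⟩ := hy
      refine ⟨C ∪ C', hC.union hC', ?_⟩
      rw [map_add]
      have e1 : P (C ∪ C') x = x := by
        conv_lhs => rw [← hx]
        change (P (C ∪ C') * P C) x = x
        rw [h.le_mul hC (hC.union hC') Set.subset_union_left, hx]
      have e2 : P (C ∪ C') y = y := by
        conv_lhs => rw [← hy]
        change (P (C ∪ C') * P C') y = y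
        rw [h.le_mul hC' (hC.union hC') Set.subset_union_right, hy]
      rw [e1, e2]
    | smul c x _ hx =>
      obtain ⟨C, hC, hx⟩ := hx
      exact ⟨C, hC, by rw [map_smul, hx]⟩
  obtain ⟨C, hC, hCs⟩ := h4 s hs
  refine ⟨C, hC, ?_⟩
  have h5 : ζ - P C ζ = (ζ - s) - P C (ζ - s) := by rw [map_sub, hCs]; abel
  rw [h5]
  have h6 := norm_proj_le (h.adj C hC) (h.idem C hC) (ζ - s)
  have h7 := norm_sub_le (ζ - s) (P C (ζ - s))
  rw [dist_eq_norm] at hd
  linarith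

theorem sum_le {ι : Type} (s : Finset ι) (A : ι → Set G) (hA : ∀ i ∈ s, CO (A i))
    (hd : (s : Set ι).PairwiseDisjoint A) (ζ : H) : ∑ i ∈ s, ‖P (A i) ζ‖ ^ 2 ≤ ‖ζ‖ ^ 2 := by
  have h1 := (h.fadd ζ).biUnion s A hA hd
  rw [← h1]
  have hco : CO (⋃ i ∈ s, A i) := CO.biUnion hA
  exact pow_le_pow_left₀ (norm_nonneg _) (norm_proj_le (h.adj _ hco) (h.idem _ hco) ζ) 2

end Fam

section integral

variable {G Γ Δ : Type} [Group G] [TopologicalSpace G] [IsTopologicalGroup G] [T2Space G]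
  [SecondCountableTopology G] [MeasurableSpace G] [BorelSpace G] [Group Γ] [Group Δ]
  {V : Γ →* (H →L[ℂ] H)} {R : Δ →* (H →L[ℂ] H)} {p : Γ →* G} {ψ : Δ →* G}
  {P : Set G → (H →L[ℂ] H)} (h : Fam V R p ψ P) (μ : Measure G) [μ.IsMulLeftInvariant]
include h

/-- the integral of a coset over its right translates -/
theorem Fam.lint_coset (L : Subgroup G) (hL : CO (L : Set G)) (c : G) (ζ : H) :
    ∫⁻ y, ‖P (rt (lt c (L : Set G)) y⁻¹) ζ‖ₑ ^ 2 ∂μ ≤ μ (L : Set G) * ‖ζ‖ₑ ^ 2 := by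
  classical
  haveI : DiscreteTopology (G ⧸ L) := QuotientGroup.discreteTopology hL.2
  haveI : Countable (G ⧸ L) := countable_of_Lindelof_of_discrete
  obtain ⟨S, hS⟩ : ∃ S : G ⧸ L → Set G, S = fun q => lt q.out (L : Set G) := ⟨_, rfl⟩
  have hSm : ∀ q, MeasurableSet (S q) := fun q => by rw [hS]; exact (hL.lt _).2.measurableSet
  have hmem : ∀ (y : G) (q : G ⧸ L), y ∈ S q ↔ (y : G ⧸ L) = q := by
    intro y q
    rw [hS]
    simp only
    rw [mem_lt]
    conv_rhs => rw [← Quotient.out_eq' q]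
    rw [eq_comm]
    exact QuotientGroup.eq.symm
  have hSd : Pairwise (Function.onFun Disjoint S) := by
    intro q q' hqq
    rw [Function.onFun, Set.disjoint_left]
    intro y hy hy'
    rw [hmem] at hy hy'
    exact hqq (hy.symm.trans hy')
  have hU : (⋃ q, S q) = Set.univ := by
    rw [Set.eq_univ_iff_forall]
    intro y
    rw [Set.mem_iUnion]
    exact ⟨(y : G ⧸ L), (hmem _ _).2 rfl⟩
  have h1 : ∫⁻ y, ‖P (rt (lt c (L : Set G)) y⁻¹) ζ‖ₑ ^ 2 ∂μ =
      ∑' q, ∫⁻ y in S q, ‖P (rt (lt c (L : Set G)) y⁻¹) ζ‖ₑ ^ 2 ∂μ := by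
    rw [← lintegral_iUnion hSm hSd, hU, setLIntegral_univ]
  have h2 : ∀ q, ∫⁻ y in S q, ‖P (rt (lt c (L : Set G)) y⁻¹) ζ‖ₑ ^ 2 ∂μ =
      ‖P (rt (lt c (L : Set G)) (q.out)⁻¹) ζ‖ₑ ^ 2 * μ (L : Set G) := by
    intro q
    have h3 : ∀ y ∈ S q, ‖P (rt (lt c (L : Set G)) y⁻¹) ζ‖ₑ ^ 2 =
        ‖P (rt (lt c (L : Set G)) (q.out)⁻¹) ζ‖ₑ ^ 2 := by
      intro y hy
      have h4 : rt (lt c (L : Set G)) y⁻¹ = rt (lt c (L : Set G)) (q.out)⁻¹ := by
        have hy' : (q.out)⁻¹ * y ∈ L := by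
          rw [hS] at hy
          exact mem_lt.1 hy
        ext x
        rw [mem_rt, mem_rt, mem_lt, mem_lt, inv_inv, inv_inv]
        have e : c⁻¹ * (x * y) = c⁻¹ * (x * q.out) * ((q.out)⁻¹ * y) := by group
        rw [e]
        exact L.mul_mem_cancel_right hy'
      rw [h4]
    rw [setLIntegral_congr_fun (hSm q) h3, setLIntegral_const]
    congr 1
    rw [hS]
    change μ ((fun x => q.out * x) '' (L : Set G)) = _
    have e2 : (fun x => q.out * x) '' (L : Set G) = (fun x => (q.out)⁻¹ * x) ⁻¹' (L : Set G) := by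
      ext x
      constructor
      · rintro ⟨a, ha, rfl⟩; simpa using ha
      · intro hx; exact ⟨(q.out)⁻¹ * x, hx, by simp⟩
    rw [e2, measure_preimage_mul]
  rw [h1]
  simp_rw [h2]
  rw [ENNReal.tsum_mul_right, mul_comm]
  gcongr
  rw [ENNReal.tsum_eq_iSup_sum]
  refine iSup_le fun s => ?_
  have h5 := h.sum_le s (fun q => rt (lt c (L : Set G)) (q.out)⁻¹) (fun q _ => (hL.lt _).rt _) (by
    intro q _ q' _ hqq
    rw [Function.onFun, Set.disjoint_left]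
    intro x hx hx'
    rw [mem_rt, mem_lt, inv_inv] at hx hx'
    apply hqq
    have e3 : (q.out)⁻¹ * q'.out = (c⁻¹ * (x * q.out))⁻¹ * (c⁻¹ * (x * q'.out)) := by group
    have h6 : (q.out)⁻¹ * q'.out ∈ L := by
      rw [e3]
      exact L.mul_mem (L.inv_mem hx) hx'
    have h7 : ((q.out : G) : G ⧸ L) = ((q'.out : G) : G ⧸ L) := QuotientGroup.eq.2 h6
    rw [← Quotient.out_eq' q, ← Quotient.out_eq' q']
    exact h7) ζ
  rw [enorm_sq]
  simp_rw [enorm_sq]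
  rw [← ENNReal.ofReal_sum_of_nonneg (fun i _ => by positivity)]
  exact ENNReal.ofReal_le_ofReal h5

/-- the same for all compact open sets, with a bound which does not depend on the left translate -/
theorem Fam.lint_co [IsFiniteMeasureOnCompacts μ] (hs : SmallCO G) {D : Set G} (hD : CO D) :
    ∃ c : ℝ≥0∞, c ≠ ⊤ ∧ ∀ g ζ, ∫⁻ y, ‖P (rt (lt g D) y⁻¹) ζ‖ₑ ^ 2 ∂μ ≤ c * ‖ζ‖ₑ ^ 2 := by
  classical
  obtain ⟨L, hL, -⟩ := hs Set.univ Filter.univ_mem
  obtain ⟨t, ht, hcov⟩ := hD.1.elim_nhds_subcover (fun x => lt x (L : Set G)) (fun x _ =>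
    (hL.lt x).2.mem_nhds (by rw [mem_lt, inv_mul_cancel]; exact L.one_mem))
  refine ⟨t.card * μ (L : Set G), ENNReal.mul_ne_top (by simp) hL.1.measure_lt_top.ne, fun g ζ => ?_⟩
  have h1 : ∀ y, ‖P (rt (lt g D) y⁻¹) ζ‖ₑ ^ 2 ≤
      ∑ x ∈ t, ‖P (rt (lt (g * x) (L : Set G)) y⁻¹) ζ‖ₑ ^ 2 := by
    intro y
    rw [enorm_sq]
    simp_rw [enorm_sq]
    rw [← ENNReal.ofReal_sum_of_nonneg (fun i _ => by positivity)]
    refine ENNReal.ofReal_le_ofReal ?_
    refine (h.fadd ζ).le_sum t (fun x => rt (lt (g * x) (L : Set G)) y⁻¹)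
      (fun i _ => (hL.lt _).rt _) ((hD.lt _).rt _) ?_
    intro z hz
    rw [mem_rt, mem_lt, inv_inv] at hz
    have h2 := hcov hz
    simp only [Set.mem_iUnion, exists_prop] at h2 ⊢
    obtain ⟨x, hx, hx'⟩ := h2
    refine ⟨x, hx, ?_⟩
    rw [mem_lt] at hx'
    rw [mem_rt, mem_lt, inv_inv, mul_inv_rev, mul_assoc]
    exact hx'
  have hmeas : ∀ x ∈ t, Measurable fun y => ‖P (rt (lt (g * x) (L : Set G)) y⁻¹) ζ‖ₑ ^ 2 := by
    intro x _
    have : IsLocallyConstant fun y => rt (lt (g * x) (L : Set G)) y⁻¹ :=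
      (IsLocallyConstant.iff_eventually_eq _).2 fun y => stabR (hL.lt _) y
    exact (this.comp fun A => ‖P A ζ‖ₑ ^ 2).continuous.measurable
  calc ∫⁻ y, ‖P (rt (lt g D) y⁻¹) ζ‖ₑ ^ 2 ∂μ ≤
      ∫⁻ y, ∑ x ∈ t, ‖P (rt (lt (g * x) (L : Set G)) y⁻¹) ζ‖ₑ ^ 2 ∂μ := lintegral_mono h1
    _ = ∑ x ∈ t, ∫⁻ y, ‖P (rt (lt (g * x) (L : Set G)) y⁻¹) ζ‖ₑ ^ 2 ∂μ :=
        lintegral_finset_sum' _ fun x hx => (hmeas x hx).aemeasurable
    _ ≤ ∑ x ∈ t, μ (L : Set G) * ‖ζ‖ₑ ^ 2 := Finset.sum_le_sum fun x _ => h.lint_coset μ L hL _ ζ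
    _ = t.card * μ (L : Set G) * ‖ζ‖ₑ ^ 2 := by
        rw [Finset.sum_const, nsmul_eq_mul, mul_assoc]

end integral

end Vale.Agent.P092.H136
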