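import Mathlib
import Vale.Agent.P092.H136.Fam

/-!
P092 (helper136), block (5)/(6) of project B: covariant families of projections over two different
places commute.
-/

set_option linter.all false

namespace Vale.Agent.P092.H136

open Topology Filter MeasureTheory ContinuousLinearMap
open scoped InnerProductSpace ENNReal Pointwise

variable {H : Type} [NormedAddCommGroup H] [InnerProductSpace ℂ H] [CompleteSpace H]

section field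

variable {Γ Δ G₁ G₂ : Type} [Group Γ] [Group Δ]
  [Group G₁] [TopologicalSpace G₁] [IsTopologicalGroup G₁] [T2Space G₁]
  [Group G₂] [TopologicalSpace G₂] [IsTopologicalGroup G₂] [T2Space G₂]
  {V : Γ →* (H →L[ℂ] H)} {R : Δ →* (H →L[ℂ] H)}
  {p₁ : Γ →* G₁} {p₂ : Γ →* G₂} {ψ₁ : Δ →* G₁} {ψ₂ : Δ →* G₂}
  {P : Set G₁ → (H →L[ℂ] H)} {Q : Set G₂ → (H →L[ℂ] H)}

/-- the field of operators -/
def X (P : Set G₁ → (H →L[ℂ] H)) (Q : Set G₂ → (H →L[ℂ] H)) (D : Set G₂) (C C' : Set G₁)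
    (h y : G₁ × G₂) : H →L[ℂ] H :=
  P (rt (lt h.1 C) y.1⁻¹) * Q (rt (lt h.2 D) y.2⁻¹) * P (rt (lt h.1 C') y.1⁻¹)

variable (hP : Fam V R p₁ ψ₁ P) (hQ : Fam V R p₂ ψ₂ Q) {D : Set G₂} (hD : CO D)
  {C C' : Set G₁} (hC : CO C) (hC' : CO C')

theorem conj_mul3 {Γ : Type} [Group Γ] (V : Γ →* (H →L[ℂ] H)) (g : Γ) (a b c : H →L[ℂ] H) :
    V g * (a * b * c) * V g⁻¹ = (V g * a * V g⁻¹) * (V g * b * V g⁻¹) * (V g * c * V g⁻¹) := by
  have h1 : V g⁻¹ * V g = 1 := by rw [← map_mul, inv_mul_cancel, map_one]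
  have h2 : (V g * a * V g⁻¹) * (V g * b * V g⁻¹) * (V g * c * V g⁻¹) =
      V g * (a * ((V g⁻¹ * V g) * (b * ((V g⁻¹ * V g) * c)))) * V g⁻¹ := by
    simp only [mul_assoc]
  rw [h2, h1, one_mul, one_mul, mul_assoc a b c]

include hP hQ hD hC hC'

theorem X_cov (h : G₁ × G₂) (d : Δ) (y : G₁ × G₂) :
    X P Q D C C' h ((ψ₁.prod ψ₂) d * y) = R d * X P Q D C C' h y * R d⁻¹ := by
  rw [X, X, conj_mul3, hP.covR d _ ((hC.lt _).rt _), hP.covR d _ ((hC'.lt _).rt _),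
    hQ.covR d _ ((hD.lt _).rt _), rt_rt, rt_rt, rt_rt]
  simp only [MonoidHom.prod_apply, Prod.fst_mul, Prod.snd_mul, mul_inv_rev]

theorem X_V (g : Γ) (h y : G₁ × G₂) :
    X P Q D C C' ((p₁.prod p₂) g * h) y = V g * X P Q D C C' h y * V g⁻¹ := by
  rw [X, X, conj_mul3, hP.covV g _ ((hC.lt _).rt _), hP.covV g _ ((hC'.lt _).rt _),
    hQ.covV g _ ((hD.lt _).rt _), lt_rt, lt_rt, lt_rt, lt_lt, lt_lt, lt_lt]
  simp only [MonoidHom.prod_apply, Prod.fst_mul, Prod.snd_mul]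

theorem X_adj (h y : G₁ × G₂) : adjoint (X P Q D C C' h y) = X P Q D C' C h y := by
  have e : ∀ a b : H →L[ℂ] H, adjoint (a * b) = adjoint b * adjoint a := fun a b =>
    adjoint_comp _ _
  rw [X, X, e, e, hP.adj _ ((hC.lt _).rt _), hP.adj _ ((hC'.lt _).rt _),
    hQ.adj _ ((hD.lt _).rt _), mul_assoc]

omit hP hQ in
theorem X_lc (h : G₁ × G₂) : IsLocallyConstant (X P Q D C C' h) := by
  rw [IsLocallyConstant.iff_eventually_eq]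
  intro y
  have h1 := (stabR (hC.lt h.1) y.1)
  have h2 := (stabR (hC'.lt h.1) y.1)
  have h3 := (stabR (hD.lt h.2) y.2)
  filter_upwards [continuous_fst.continuousAt.eventually h1,
    continuous_fst.continuousAt.eventually h2, continuous_snd.continuousAt.eventually h3]
    with y' e1 e2 e3
  rw [X, X, e1, e2, e3]

omit hP hQ in
theorem X_lc' (h : G₁ × G₂) : ∀ᶠ h' in 𝓝 h, X P Q D C C' h' = X P Q D C C' h := by
  have h1 := stabL hC h.1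
  have h2 := stabL hC' h.1
  have h3 := stabL hD h.2
  filter_upwards [continuous_fst.continuousAt.eventually h1,
    continuous_fst.continuousAt.eventually h2, continuous_snd.continuousAt.eventually h3]
    with h' e1 e2 e3
  funext y
  rw [X, X, e1, e2, e3]

end field

section kappa

variable {ι Γ Δ G₁ G₂ : Type} [Fintype ι] [Group Γ] [Group Δ] [Countable Δ]
  [Group G₁] [TopologicalSpace G₁] [IsTopologicalGroup G₁] [T2Space G₁]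
  [SecondCountableTopology G₁] [MeasurableSpace G₁] [BorelSpace G₁]
  [Group G₂] [TopologicalSpace G₂] [IsTopologicalGroup G₂] [T2Space G₂]
  [SecondCountableTopology G₂] [MeasurableSpace G₂] [BorelSpace G₂]
  {V : Γ →* (H →L[ℂ] H)} {R : Δ →* (H →L[ℂ] H)} {ξ : ι → H}
  {p₁ : Γ →* G₁} {p₂ : Γ →* G₂} {ψ₁ : Δ →* G₁} {ψ₂ : Δ →* G₂}
  {P : Set G₁ → (H →L[ℂ] H)} {Q : Set G₂ → (H →L[ℂ] H)}

/-- the inner integral -/
noncomputable def kp (μ₁ : Measure G₁) (μ₂ : Measure G₂) (ξ : ι → H) (P : Set G₁ → (H →L[ℂ] H))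
    (Q : Set G₂ → (H →L[ℂ] H)) (D : Set G₂) (C C' : Set G₁) (h : G₁ × G₂) : ℝ≥0∞ :=
  ∑ i, ∫⁻ y, ‖X P Q D C C' h y (ξ i)‖ₑ ^ 2 ∂(μ₁.prod μ₂)

variable (μ₁ : Measure G₁) (μ₂ : Measure G₂)
  [SigmaFinite μ₁] [SigmaFinite μ₂] [μ₁.IsMulLeftInvariant] [μ₂.IsMulLeftInvariant]
  (hP : Fam V R p₁ ψ₁ P) (hQ : Fam V R p₂ ψ₂ Q)
  (hV : ∀ g, adjoint (V g) = V g⁻¹) (hR : ∀ d, adjoint (R d) = R d⁻¹)
  (hVR : ∀ g d, V g * R d = R d * V g) (hF : Frm R ξ) {D : Set G₂} (hD : CO D)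
  {C C' : Set G₁} (hC : CO C) (hC' : CO C')

theorem X_meas (hD : CO D) (hC : CO C) (hC' : CO C') {Y : Type} [TopologicalSpace Y]
    [MeasurableSpace Y] [BorelSpace Y] (h : G₁ × G₂) (f : (H →L[ℂ] H) → Y) :
    Measurable fun y => f (X P Q D C C' h y) :=
  ((X_lc hD hC hC' h).comp f).continuous.measurable

include hP hQ hV hR hVR hF hD hC hC'

theorem kp_V (g : Γ) (h : G₁ × G₂) : kp μ₁ μ₂ ξ P Q D C C' ((p₁.prod p₂) g * h) =
    kp μ₁ μ₂ ξ P Q D C C' h := by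
  rw [kp, kp]
  have hVV : V g * V g⁻¹ = 1 := by rw [← map_mul, mul_inv_cancel, map_one]
  have hVV' : V g⁻¹ * V g = 1 := by rw [← map_mul, inv_mul_cancel, map_one]
  have h1 := trace_mul hR hF (μ₁.prod μ₂) (ψ₁.prod ψ₂) (X := X P Q D C C' h)
    (X_cov hP hQ hD hC hC' h)
    (fun ζ η => X_meas hD hC hC' h fun T => ⟪ζ, T η⟫_ℂ) (W := V g⁻¹)
    (by rw [hV, inv_inv, hVV']) (fun d => hVR _ _)
  rw [← h1]
  refine Finset.sum_congr rfl fun i _ => lintegral_congr fun y => ?_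
  rw [X_V hP hQ hD hC hC']
  congr 1
  have h2 : ‖V g (X P Q D C C' h y (V g⁻¹ (ξ i)))‖ = ‖X P Q D C C' h y (V g⁻¹ (ξ i))‖ := by
    have h3 : ∀ v : H, ‖V g v‖ = ‖v‖ := by
      intro v
      have h4 : ⟪V g v, V g v⟫_ℂ = ⟪v, v⟫_ℂ := by
        rw [← adjoint_inner_right, hV]
        change ⟪v, (V g⁻¹ * V g) v⟫_ℂ = _
        rw [hVV']; rfl
      rw [inner_self_eq_norm_sq_to_K, inner_self_eq_norm_sq_to_K] at h4
      have h5 : ‖V g v‖ ^ 2 = ‖v‖ ^ 2 := by exact_mod_cast h4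
      exact (sq_eq_sq₀ (norm_nonneg _) (norm_nonneg _)).1 h5
    exact h3 _
  change ‖V g (X P Q D C C' h y (V g⁻¹ (ξ i)))‖ₑ = _
  rw [← ofReal_norm_eq_enorm, ← ofReal_norm_eq_enorm, h2]

omit hV hVR in
theorem kp_symm (h : G₁ × G₂) : kp μ₁ μ₂ ξ P Q D C C' h = kp μ₁ μ₂ ξ P Q D C' C h := by
  rw [kp, kp]
  have h1 := trace_symm hR hF (μ₁.prod μ₂) (ψ₁.prod ψ₂) (X := X P Q D C C' h)
    (X_cov hP hQ hD hC hC' h)
    (fun ζ η => X_meas hD hC hC' h fun T => ⟪ζ, T η⟫_ℂ)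
  rw [h1]
  refine Finset.sum_congr rfl fun i _ => lintegral_congr fun y => ?_
  rw [X_adj hP hQ hD hC hC']

end kappa

section kappa2

variable {ι Γ Δ G₁ G₂ : Type} [Fintype ι] [Group Γ] [Group Δ] [Countable Δ]
  [Group G₁] [TopologicalSpace G₁] [IsTopologicalGroup G₁] [T2Space G₁]
  [SecondCountableTopology G₁] [MeasurableSpace G₁] [BorelSpace G₁]
  [Group G₂] [TopologicalSpace G₂] [IsTopologicalGroup G₂] [T2Space G₂]
  [SecondCountableTopology G₂] [MeasurableSpace G₂] [BorelSpace G₂]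
  {V : Γ →* (H →L[ℂ] H)} {R : Δ →* (H →L[ℂ] H)} {ξ : ι → H}
  {p₁ : Γ →* G₁} {p₂ : Γ →* G₂} {ψ₁ : Δ →* G₁} {ψ₂ : Δ →* G₂}
  {P : Set G₁ → (H →L[ℂ] H)} {Q : Set G₂ → (H →L[ℂ] H)}
  (μ₁ : Measure G₁) (μ₂ : Measure G₂)

theorem kp_add (hP : Fam V R p₁ ψ₁ P) {D : Set G₂} (hD : CO D) {A B C' : Set G₁} (hA : CO A)
    (hB : CO B) (hC' : CO C') (hAB : Disjoint A B) (h : G₁ × G₂) :
    kp μ₁ μ₂ ξ P Q D (A ∪ B) C' h = kp μ₁ μ₂ ξ P Q D A C' h + kp μ₁ μ₂ ξ P Q D B C' h := by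
  rw [kp, kp, kp, ← Finset.sum_add_distrib]
  refine Finset.sum_congr rfl fun i _ => ?_
  rw [← lintegral_add_left (X_meas hD hA hC' h fun T => ‖T (ξ i)‖ₑ ^ 2)]
  refine lintegral_congr fun y => ?_
  rw [enorm_sq, enorm_sq, enorm_sq, ← ENNReal.ofReal_add (by positivity) (by positivity)]
  congr 1
  have h1 : rt (lt h.1 (A ∪ B)) y.1⁻¹ = rt (lt h.1 A) y.1⁻¹ ∪ rt (lt h.1 B) y.1⁻¹ := by
    rw [lt_union, rt_union]
  have h2 := hP.norm_add (rt (lt h.1 A) y.1⁻¹) (rt (lt h.1 B) y.1⁻¹) ((hA.lt _).rt _)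
    ((hB.lt _).rt _) (rt_disj _ (lt_disj _ hAB))
    (Q (rt (lt h.2 D) y.2⁻¹) (P (rt (lt h.1 C') y.1⁻¹) (ξ i)))
  rw [← h1] at h2
  exact h2

theorem kp_right [SigmaFinite μ₁] [SigmaFinite μ₂] [μ₁.IsMulRightInvariant]
    {D : Set G₂} (hD : CO D) {C C' : Set G₁} (hC : CO C)
    (hC' : CO C') (z : G₁) (h : G₁ × G₂) :
    kp μ₁ μ₂ ξ P Q D (rt C z) (rt C' z) h = kp μ₁ μ₂ ξ P Q D C C' h := by
  rw [kp, kp]
  refine Finset.sum_congr rfl fun i _ => ?_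
  have h1 : ∀ y : G₁ × G₂, X P Q D (rt C z) (rt C' z) h y = X P Q D C C' h (y.1 * z⁻¹, y.2) := by
    intro y
    rw [X, X]
    simp only [mul_inv_rev, inv_inv]
    rw [lt_rt, lt_rt, rt_rt, rt_rt]
  have hm : Measurable fun y => ‖X P Q D C C' h y (ξ i)‖ₑ ^ 2 :=
    X_meas hD hC hC' h fun T => ‖T (ξ i)‖ₑ ^ 2
  have hm' : Measurable fun y : G₁ × G₂ => ‖X P Q D C C' h (y.1 * z⁻¹, y.2) (ξ i)‖ₑ ^ 2 := by
    refine hm.comp ?_
    exact (measurable_fst.mul_const _).prodMk measurable_snd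
  simp_rw [h1]
  rw [lintegral_prod_symm _ hm'.aemeasurable, lintegral_prod_symm _ hm.aemeasurable]
  refine lintegral_congr fun y₂ => ?_
  exact lintegral_mul_right_eq_self (fun y₁ => ‖X P Q D C C' h (y₁, y₂) (ξ i)‖ₑ ^ 2) z⁻¹

theorem kp_left {D : Set G₂} {C C' : Set G₁} (g : G₁) (h : G₁ × G₂) :
    kp μ₁ μ₂ ξ P Q D (lt g C) (lt g C') h = kp μ₁ μ₂ ξ P Q D C C' (h * (g, 1)) := by
  rw [kp, kp]
  refine Finset.sum_congr rfl fun i _ => lintegral_congr fun y => ?_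
  rw [X, X, lt_lt, lt_lt]
  simp only [Prod.fst_mul, Prod.snd_mul, mul_one]

theorem kp_lc {D : Set G₂} (hD : CO D) {C C' : Set G₁} (hC : CO C) (hC' : CO C') :
    IsLocallyConstant (kp μ₁ μ₂ ξ P Q D C C') := by
  rw [IsLocallyConstant.iff_eventually_eq]
  intro h
  filter_upwards [X_lc' (P := P) (Q := Q) hD hC hC' h] with h' e
  rw [kp, kp]
  simp_rw [e]

/-- the bound -/
theorem kp_le [SigmaFinite μ₁] [SigmaFinite μ₂] [μ₂.IsMulLeftInvariant]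
    [IsFiniteMeasureOnCompacts μ₂] (hP : Fam V R p₁ ψ₁ P) (hQ : Fam V R p₂ ψ₂ Q)
    (hs : SmallCO G₂) {D : Set G₂} (hD : CO D) :
    ∃ c : ℝ≥0∞, c ≠ ⊤ ∧ ∀ C C' : Set G₁, CO C → CO C' → ∀ h, kp μ₁ μ₂ ξ P Q D C C' h ≤
      c * ∑ i, ∫⁻ y, ‖P (rt (lt h.1 C') y⁻¹) (ξ i)‖ₑ ^ 2 ∂μ₁ := by
  obtain ⟨c, hc, hb⟩ := hQ.lint_co μ₂ hs hD
  refine ⟨c, hc, fun C C' hC hC' h => ?_⟩
  rw [kp, Finset.mul_sum]
  refine Finset.sum_le_sum fun i _ => ?_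
  have hm : Measurable fun y => ‖X P Q D C C' h y (ξ i)‖ₑ ^ 2 :=
    X_meas hD hC hC' h fun T => ‖T (ξ i)‖ₑ ^ 2
  rw [lintegral_prod _ hm.aemeasurable, ← lintegral_const_mul' _ _ hc]
  refine lintegral_mono fun y₁ => ?_
  refine le_trans ?_ (hb h.2 (P (rt (lt h.1 C') y₁⁻¹) (ξ i)))
  refine lintegral_mono fun y₂ => ?_
  change ‖P (rt (lt h.1 C) y₁⁻¹) (Q (rt (lt h.2 D) y₂⁻¹) (P (rt (lt h.1 C') y₁⁻¹) (ξ i)))‖ₑ ^ 2 ≤ _
  rw [enorm_sq, enorm_sq]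
  refine ENNReal.ofReal_le_ofReal ?_
  exact pow_le_pow_left₀ (norm_nonneg _)
    (norm_proj_le (hP.adj _ ((hC.lt _).rt _)) (hP.idem _ ((hC.lt _).rt _)) _) 2

end kappa2

end Vale.Agent.P092.H136
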