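import Mathlib
import Vale.Agent.P092.H136.Comm

/-!
P092 (helper136), block (5)/(6) of project B: covariant families of projections over the two places
of an irreducible lattice commute.
-/

set_option linter.all false

namespace Vale.Agent.P092.H136

open Topology Filter MeasureTheory ContinuousLinearMap
open scoped InnerProductSpace ENNReal Pointwise

variable {H : Type} [NormedAddCommGroup H] [InnerProductSpace ℂ H] [CompleteSpace H]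

section main

variable {ι Γ Δ G₁ G₂ : Type} [Fintype ι] [Group Γ] [Group Δ] [Countable Δ]
  [Group G₁] [TopologicalSpace G₁] [IsTopologicalGroup G₁] [T2Space G₁]
  [SecondCountableTopology G₁] [MeasurableSpace G₁] [BorelSpace G₁]
  [Group G₂] [TopologicalSpace G₂] [IsTopologicalGroup G₂] [T2Space G₂]
  [SecondCountableTopology G₂] [MeasurableSpace G₂] [BorelSpace G₂]
  {V : Γ →* (H →L[ℂ] H)} {R : Δ →* (H →L[ℂ] H)} {ξ : ι → H}
  {p₁ : Γ →* G₁} {p₂ : Γ →* G₂} {ψ₁ : Δ →* G₁} {ψ₂ : Δ →* G₂}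
  {P : Set G₁ → (H →L[ℂ] H)} {Q : Set G₂ → (H →L[ℂ] H)}
  (μ₁ : Measure G₁) (μ₂ : Measure G₂)
  [SigmaFinite μ₁] [SigmaFinite μ₂] [μ₁.IsMulLeftInvariant] [μ₂.IsMulLeftInvariant]
  [μ₁.IsMulRightInvariant] [IsFiniteMeasureOnCompacts μ₁] [IsFiniteMeasureOnCompacts μ₂]
  [μ₁.IsOpenPosMeasure] [μ₂.IsOpenPosMeasure]
  (hP : Fam V R p₁ ψ₁ P) (hQ : Fam V R p₂ ψ₂ Q)
  (hV : ∀ g, adjoint (V g) = V g⁻¹) (hR : ∀ d, adjoint (R d) = R d⁻¹)
  (hVR : ∀ g d, V g * R d = R d * V g) (hF : Frm R ξ)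
  (Lat : Subgroup (G₁ × G₂)) (hLat : ∀ l ∈ Lat, ∃ g : Γ, l = (p₁.prod p₂) g)
  [MeasurableSpace ((G₁ × G₂) ⧸ Lat)] [BorelSpace ((G₁ × G₂) ⧸ Lat)]
  (m : Measure ((G₁ × G₂) ⧸ Lat)) [IsFiniteMeasure m] [m.IsOpenPosMeasure]
  (hm : ∀ g : G₁ × G₂, MeasurePreserving (fun x => g • x) m m)
  (hs₁ : SmallCO G₁) (hs₂ : SmallCO G₂)

/-- the function on the quotient -/
noncomputable def KK (ξ : ι → H) (P : Set G₁ → (H →L[ℂ] H)) (Q : Set G₂ → (H →L[ℂ] H))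
    (D : Set G₂) (C C' : Set G₁) (x : (G₁ × G₂) ⧸ Lat) : ℝ≥0∞ :=
  kp μ₁ μ₂ ξ P Q D C C' (x.out)⁻¹

/-- the double integral -/
noncomputable def II (ξ : ι → H) (P : Set G₁ → (H →L[ℂ] H)) (Q : Set G₂ → (H →L[ℂ] H))
    (D : Set G₂) (C C' : Set G₁) : ℝ≥0∞ :=
  ∫⁻ x, KK μ₁ μ₂ Lat ξ P Q D C C' x ∂m

section a

include hP hQ hV hR hVR hF hLat
omit [μ₁.IsMulRightInvariant] [IsFiniteMeasureOnCompacts μ₁] [IsFiniteMeasureOnCompacts μ₂]
  [μ₁.IsOpenPosMeasure] [μ₂.IsOpenPosMeasure] [MeasurableSpace ((G₁ × G₂) ⧸ Lat)]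
  [BorelSpace ((G₁ × G₂) ⧸ Lat)]

theorem KK_mk {D : Set G₂} (hD : CO D) {C C' : Set G₁} (hC : CO C) (hC' : CO C') (g : G₁ × G₂) :
    KK μ₁ μ₂ Lat ξ P Q D C C' (g : (G₁ × G₂) ⧸ Lat) = kp μ₁ μ₂ ξ P Q D C C' g⁻¹ := by
  rw [KK]
  obtain ⟨l, hl⟩ := QuotientGroup.mk_out_eq_mul Lat g
  obtain ⟨γ, hγ⟩ := hLat (l : G₁ × G₂)⁻¹ (Lat.inv_mem l.2)
  rw [hl, mul_inv_rev, hγ, kp_V μ₁ μ₂ hP hQ hV hR hVR hF hD hC hC']

theorem KK_cont {D : Set G₂} (hD : CO D) {C C' : Set G₁} (hC : CO C) (hC' : CO C') :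
    Continuous (KK μ₁ μ₂ Lat ξ P Q D C C') := by
  rw [(QuotientGroup.isOpenQuotientMap_mk (N := Lat)).isQuotientMap.continuous_iff]
  have h1 : (KK μ₁ μ₂ Lat ξ P Q D C C') ∘ (QuotientGroup.mk : G₁ × G₂ → (G₁ × G₂) ⧸ Lat) =
      fun g => kp μ₁ μ₂ ξ P Q D C C' g⁻¹ := by
    funext g
    exact KK_mk μ₁ μ₂ hP hQ hV hR hVR hF Lat hLat hD hC hC' g
  rw [h1]
  exact (kp_lc μ₁ μ₂ hD hC hC').continuous.comp continuous_inv

end a

section b

include hP hQ hs₂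

/-- finiteness and the bound for subgroups -/
theorem II_le {D : Set G₂} (hD : CO D) : ∃ c : ℝ≥0∞, c ≠ ⊤ ∧ ∀ C C' : Set G₁, CO C → CO C' →
    ∀ b : ℝ≥0∞, (∀ g ζ, ∫⁻ y, ‖P (rt (lt g C') y⁻¹) ζ‖ₑ ^ 2 ∂μ₁ ≤ b * ‖ζ‖ₑ ^ 2) →
    II μ₁ μ₂ Lat m ξ P Q D C C' ≤ c * b := by
  obtain ⟨c, hc, h1⟩ := kp_le (ξ := ξ) μ₁ μ₂ hP hQ hs₂ hD
  refine ⟨c * (∑ i, ‖ξ i‖ₑ ^ 2) * m Set.univ, ?_, ?_⟩
  · refine ENNReal.mul_ne_top (ENNReal.mul_ne_top hc ?_) (measure_ne_top m _)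
    exact ENNReal.sum_ne_top.2 fun i _ => ENNReal.pow_ne_top enorm_ne_top
  · intro C C' hC hC' b hb
    have h2 : ∀ x, KK μ₁ μ₂ Lat ξ P Q D C C' x ≤ c * (b * ∑ i, ‖ξ i‖ₑ ^ 2) := by
      intro x
      rw [KK]
      refine (h1 C C' hC hC' _).trans ?_
      gcongr
      rw [Finset.mul_sum]
      exact Finset.sum_le_sum fun i _ => hb _ _
    rw [II]
    refine (lintegral_mono h2).trans ?_
    rw [lintegral_const]
    apply le_of_eq
    ring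

theorem II_ne_top (hs₁ : SmallCO G₁) {D : Set G₂} (hD : CO D) {C C' : Set G₁} (hC : CO C)
    (hC' : CO C') : II μ₁ μ₂ Lat m ξ P Q D C C' ≠ ⊤ := by
  obtain ⟨c, hc, h1⟩ := II_le (ξ := ξ) μ₁ μ₂ hP hQ Lat m hs₂ hD
  obtain ⟨b, hb, h2⟩ := hP.lint_co μ₁ hs₁ hC'
  exact ne_top_of_le_ne_top (ENNReal.mul_ne_top hc hb) (h1 C C' hC hC' b h2)

end b

include hP hQ hV hR hVR hF hLat hm hs₁ hs₂

theorem II_symm {D : Set G₂} (hD : CO D) {C C' : Set G₁} (hC : CO C) (hC' : CO C') :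
    II μ₁ μ₂ Lat m ξ P Q D C C' = II μ₁ μ₂ Lat m ξ P Q D C' C := by
  rw [II, II]
  refine lintegral_congr fun x => ?_
  rw [KK, KK, kp_symm μ₁ μ₂ hP hQ hR hF hD hC hC']

theorem II_add {D : Set G₂} (hD : CO D) {A B C' : Set G₁} (hA : CO A) (hB : CO B) (hC' : CO C')
    (hAB : Disjoint A B) : II μ₁ μ₂ Lat m ξ P Q D (A ∪ B) C' =
      II μ₁ μ₂ Lat m ξ P Q D A C' + II μ₁ μ₂ Lat m ξ P Q D B C' := by
  rw [II, II, II, ← lintegral_add_left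
    (KK_cont μ₁ μ₂ hP hQ hV hR hVR hF Lat hLat hD hA hC').measurable]
  refine lintegral_congr fun x => ?_
  rw [KK, KK, KK, kp_add μ₁ μ₂ hP hD hA hB hC' hAB]

theorem II_left {D : Set G₂} (hD : CO D) {C C' : Set G₁} (hC : CO C) (hC' : CO C') (g : G₁) :
    II μ₁ μ₂ Lat m ξ P Q D (lt g C) (lt g C') = II μ₁ μ₂ Lat m ξ P Q D C C' := by
  rw [II, II]
  have h1 := (hm ((g, 1) : G₁ × G₂)⁻¹).lintegral_comp
    (KK_cont μ₁ μ₂ hP hQ hV hR hVR hF Lat hLat hD hC hC').measurable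
  rw [← h1]
  refine lintegral_congr fun x => ?_
  refine QuotientGroup.induction_on x fun a => ?_
  rw [KK_mk μ₁ μ₂ hP hQ hV hR hVR hF Lat hLat hD (hC.lt _) (hC'.lt _), kp_left]
  change _ = KK μ₁ μ₂ Lat ξ P Q D C C' ((((g, 1) : G₁ × G₂)⁻¹ * a : G₁ × G₂) : (G₁ × G₂) ⧸ Lat)
  rw [KK_mk μ₁ μ₂ hP hQ hV hR hVR hF Lat hLat hD hC hC', mul_inv_rev, inv_inv]

theorem II_right {D : Set G₂} (hD : CO D) {C C' : Set G₁} (hC : CO C) (hC' : CO C') (z : G₁) :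
    II μ₁ μ₂ Lat m ξ P Q D (rt C z) (rt C' z) = II μ₁ μ₂ Lat m ξ P Q D C C' := by
  rw [II, II]
  refine lintegral_congr fun x => ?_
  rw [KK, KK, kp_right μ₁ μ₂ hD hC hC']

theorem biInv {D : Set G₂} (hD : CO D) :
    BiInv (fun C C' => (II μ₁ μ₂ Lat m ξ P Q D C C').toReal) (fun C => μ₁.real C) := by
  have hfin : ∀ C C', CO C → CO C' → II μ₁ μ₂ Lat m ξ P Q D C C' ≠ ⊤ := fun C C' hC hC' =>
    II_ne_top μ₁ μ₂ hP hQ Lat m hs₂ hs₁ hD hC hC'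
  have hsy : ∀ C C', CO C → CO C' → II μ₁ μ₂ Lat m ξ P Q D C C' = II μ₁ μ₂ Lat m ξ P Q D C' C :=
    fun C C' hC hC' => II_symm μ₁ μ₂ hP hQ hV hR hVR hF Lat hLat m hm hs₁ hs₂ hD hC hC'
  have hadd : ∀ A B C', CO A → CO B → CO C' → Disjoint A B →
      (II μ₁ μ₂ Lat m ξ P Q D (A ∪ B) C').toReal =
      (II μ₁ μ₂ Lat m ξ P Q D A C').toReal + (II μ₁ μ₂ Lat m ξ P Q D B C').toReal := by
    intro A B C' hA hB hC' hAB
    rw [II_add μ₁ μ₂ hP hQ hV hR hVR hF Lat hLat m hm hs₁ hs₂ hD hA hB hC' hAB,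
      ENNReal.toReal_add (hfin _ _ hA hC') (hfin _ _ hB hC')]
  refine ⟨?_, ?_, ?_, ?_, ?_, ?_, ?_, ?_, ?_⟩
  · intro C' hC'
    exact ⟨fun A _ => ENNReal.toReal_nonneg, fun A B hA hB hAB => hadd A B C' hA hB hC' hAB⟩
  · intro C hC
    refine ⟨fun A _ => ENNReal.toReal_nonneg, fun A B hA hB hAB => ?_⟩
    rw [hsy _ _ hC (hA.union hB), hsy _ _ hC hA, hsy _ _ hC hB]
    exact hadd A B C hA hB hC hAB
  · intro g C C' hC hC'
    rw [II_left μ₁ μ₂ hP hQ hV hR hVR hF Lat hLat m hm hs₁ hs₂ hD hC hC']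
  · intro z C C' hC hC'
    rw [II_right μ₁ μ₂ hP hQ hV hR hVR hF Lat hLat m hm hs₁ hs₂ hD hC hC']
  · refine ⟨fun A _ => measureReal_nonneg, fun A B hA hB hAB => ?_⟩
    exact measureReal_union hAB hB.2.measurableSet (hA.1.measure_lt_top.ne) (hB.1.measure_lt_top.ne)
  · intro g C hC
    simp only [measureReal_def]
    congr 1
    have e2 : lt g C = (fun x => g⁻¹ * x) ⁻¹' C := by
      ext x
      exact mem_lt
    rw [e2, measure_preimage_mul]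
  · intro z C hC
    simp only [measureReal_def]
    congr 1
    have e2 : rt C z = (fun x => x * z⁻¹) ⁻¹' C := by
      ext x
      exact mem_rt
    rw [e2, measure_preimage_mul_right]
  · intro C hC hne
    exact ENNReal.toReal_pos (hC.2.measure_pos μ₁ hne).ne' hC.1.measure_lt_top.ne
  · obtain ⟨c, hc, h1⟩ := II_le (ξ := ξ) μ₁ μ₂ hP hQ Lat m hs₂ hD
    refine ⟨c.toReal, fun L C' hL hC' => ?_⟩
    rw [hsy _ _ hL hC', measureReal_def, ← ENNReal.toReal_mul]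
    refine ENNReal.toReal_mono (ENNReal.mul_ne_top hc hL.1.measure_lt_top.ne) ?_
    exact h1 C' L hC' hL _ fun g ζ => hP.lint_coset μ₁ L hL g ζ

include μ₁ μ₂

/-- off-diagonal corners vanish -/
theorem off_diag (hRec : RecS G₁) {D : Set G₂} (hD : CO D) {C C' : Set G₁} (hC : CO C)
    (hC' : CO C') (hd : Disjoint C C') : P C * Q D * P C' = 0 := by
  have h1 := (biInv μ₁ μ₂ hP hQ hV hR hVR hF Lat hLat m hm hs₁ hs₂ hD).vanish hRec hs₁ hC hC' hd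
  have h2 : II μ₁ μ₂ Lat m ξ P Q D C C' = 0 :=
    ((ENNReal.toReal_eq_zero_iff _).1 h1).resolve_right
      (II_ne_top μ₁ μ₂ hP hQ Lat m hs₂ hs₁ hD hC hC')
  have hcont := KK_cont μ₁ μ₂ hP hQ hV hR hVR hF Lat hLat hD hC hC'
  rw [II, lintegral_eq_zero_iff hcont.measurable] at h2
  have h3 : KK μ₁ μ₂ Lat ξ P Q D C C' = 0 := (hcont.ae_eq_iff_eq m continuous_zero).1 h2
  have h4 : kp μ₁ μ₂ ξ P Q D C C' 1 = 0 := by
    have := congrFun h3 ((1 : G₁ × G₂) : (G₁ × G₂) ⧸ Lat)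
    rw [KK_mk μ₁ μ₂ hP hQ hV hR hVR hF Lat hLat hD hC hC', inv_one] at this
    exact this
  rw [kp, Finset.sum_eq_zero_iff] at h4
  have h5 : ∀ i y, X P Q D C C' 1 y (ξ i) = 0 := by
    intro i y
    have h6 := h4 i (Finset.mem_univ _)
    have hmeas : Measurable fun y => ‖X P Q D C C' 1 y (ξ i)‖ₑ ^ 2 :=
      X_meas hD hC hC' 1 fun T => ‖T (ξ i)‖ₑ ^ 2
    have hc : Continuous fun y => ‖X P Q D C C' 1 y (ξ i)‖ₑ ^ 2 :=
      ((X_lc (P := P) (Q := Q) hD hC hC' 1).comp fun T => ‖T (ξ i)‖ₑ ^ 2).continuous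
    rw [lintegral_eq_zero_iff hmeas] at h6
    have h7 := (hc.ae_eq_iff_eq (μ₁.prod μ₂) continuous_zero).1 h6
    have h8 := congrFun h7 y
    simpa using h8
  have h9 : X P Q D C C' 1 1 = 0 := by
    refine hF.eq_zero hR fun d i => ?_
    have h10 := X_cov hP hQ hD hC hC' 1 d⁻¹ 1
    have h11 : R d * R d⁻¹ = 1 := by rw [← map_mul, mul_inv_cancel, map_one]
    have h12 : X P Q D C C' 1 1 * R d = R d * X P Q D C C' 1 ((ψ₁.prod ψ₂) d⁻¹ * 1) := by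
      rw [h10, inv_inv, ← mul_assoc, ← mul_assoc, h11, one_mul]
    change (X P Q D C C' 1 1 * R d) (ξ i) = 0
    rw [h12]
    change R d (X P Q D C C' 1 ((ψ₁.prod ψ₂) d⁻¹ * 1) (ξ i)) = 0
    rw [h5, map_zero]
  rw [X] at h9
  simp only [Prod.fst_one, Prod.snd_one, inv_one, lt_one, rt_one] at h9
  exact h9

/-- **Families over the two places commute.** -/
theorem fam_comm' (hRec : RecS G₁) {D : Set G₂} (hD : CO D) {C : Set G₁} (hC : CO C) :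
    P C * Q D = Q D * P C := by
  have key : Q D * P C = P C * Q D * P C := by
    ext1 ζ
    by_contra hne
    obtain ⟨v, hv⟩ : ∃ v, v = (Q D * P C) ζ - (P C * Q D * P C) ζ := ⟨_, rfl⟩
    have hv0 : 0 < ‖v‖ := norm_pos_iff.2 (by rw [hv]; exact sub_ne_zero.2 hne)
    obtain ⟨C', hC', hlt⟩ := hP.nd ((Q D * P C) ζ) hv0
    have hU := hC.union hC'
    -- pass to `C ∪ C'`
    have h1 : P (C ∪ C') * (Q D * P C) = P C * Q D * P C := by
      have h2 : P (C ∪ C') = P C + P (C' \ C) := by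
        rw [← hP.add _ _ hC (hC'.diff hC) Set.disjoint_sdiff_right]
        congr 1
        simp
      rw [h2, add_mul, ← mul_assoc, ← mul_assoc,
        off_diag μ₁ μ₂ hP hQ hV hR hVR hF Lat hLat m hm hs₁ hs₂ hRec hD (hC'.diff hC) hC
          Set.disjoint_sdiff_left, add_zero]
    have h3 : v = (Q D * P C) ζ - P (C ∪ C') ((Q D * P C) ζ) := by
      rw [hv]
      congr 1
      exact (congrArg (fun T : H →L[ℂ] H => T ζ) h1).symm
    have h4 : ‖v‖ ≤ ‖(Q D * P C) ζ - P C' ((Q D * P C) ζ)‖ := by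
      rw [h3]
      obtain ⟨w, hw⟩ : ∃ w, w = (Q D * P C) ζ := ⟨_, rfl⟩
      rw [← hw]
      have h5 : P (C ∪ C') (w - P C' w) = P (C ∪ C') w - P C' w := by
        rw [map_sub]
        congr 1
        change (P (C ∪ C') * P C') w = _
        rw [hP.le_mul hC' hU Set.subset_union_right]
      have h6 : w - P (C ∪ C') w = (w - P C' w) - P (C ∪ C') (w - P C' w) := by
        rw [h5]; abel
      rw [h6]
      exact norm_sub_proj_le (hP.adj _ hU) (hP.idem _ hU) _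
    linarith
  have h2 := congrArg adjoint key
  have e : ∀ a b : H →L[ℂ] H, adjoint (a * b) = adjoint b * adjoint a := fun a b =>
    adjoint_comp _ _
  rw [e, e, e, hP.adj C hC, hQ.adj D hD] at h2
  rw [h2, ← mul_assoc]
  exact key.symm

/-- **Families over the two places commute** (functional form of the recurrence hypothesis). -/
theorem fam_comm (hRec : Rec G₁) {D : Set G₂} (hD : CO D) {C : Set G₁} (hC : CO C) :
    P C * Q D = Q D * P C :=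
  fam_comm' μ₁ μ₂ hP hQ hV hR hVR hF Lat hLat m hm hs₁ hs₂ hRec.toS hD hC

end main

end Vale.Agent.P092.H136
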