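import Vale.Agent.P092.SR.Blocks
import Vale.Agent.P092.H136.Main56

/-!
P092 (helper136), blocks [C5] and [C6] of project B: covariant families over different places
commute, in the letters of `SR/Defs.lean`.
-/

set_option linter.all false

open scoped InnerProductSpace ENNReal
open Filter Topology ContinuousLinearMap MeasureTheory Measure

namespace Vale.Agent.P092.H136

section grp

variable {G : Type} [Group G] [TopologicalSpace G]

theorem smallCO_of_good (h : SR.GoodGrp G) : SmallCO G := by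
  intro U hU
  obtain ⟨W, hWU, hW, h1⟩ := mem_nhds_iff.1 hU
  obtain ⟨K, hK, hKW⟩ := h.basis W hW h1
  exact ⟨K, hK, hKW.trans hWU⟩

theorem lc_of_good [IsTopologicalGroup G] (h : SR.GoodGrp G) : LocallyCompactSpace G := by
  obtain ⟨K, hK, -⟩ := h.basis Set.univ isOpen_univ (Set.mem_univ _)
  exact hK.1.locallyCompactSpace_of_mem_nhds_of_group (hK.2.mem_nhds K.one_mem)

theorem modular_one [IsTopologicalGroup G] [LocallyCompactSpace G] (hperf : commutator G = ⊤)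
    (g : G) : modularCharacterFun g = 1 := by
  have h1 : commutator G ≤ (MonoidHom.toHomUnits (modularCharacter (G := G))).ker :=
    Abelianization.commutator_subset_ker _
  have h2 : g ∈ (MonoidHom.toHomUnits (modularCharacter (G := G))).ker :=
    h1 (hperf ▸ Subgroup.mem_top g)
  have h3 := congrArg (fun u : NNRealˣ => (u : NNReal)) (MonoidHom.mem_ker.1 h2)
  exact h3

theorem right_inv [IsTopologicalGroup G] [LocallyCompactSpace G] [SecondCountableTopology G]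
    (hperf : commutator G = ⊤) [MeasurableSpace G] [BorelSpace G] (μ : Measure G)
    [IsHaarMeasure μ] : μ.IsMulRightInvariant :=
  ⟨fun g => by rw [map_right_mul_eq_modularCharacterFun_smul μ g, modular_one hperf, one_smul]⟩

end grp

/-- a nonzero invariant measure on `G / L` is positive on open sets -/
theorem openPos {E : Type} [Group E] [TopologicalSpace E] [IsTopologicalGroup E]
    [SecondCountableTopology E] (L : Subgroup E) [MeasurableSpace (E ⧸ L)] [BorelSpace (E ⧸ L)]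
    (m : Measure (E ⧸ L)) (h0 : m ≠ 0)
    (hinv : ∀ g : E, ∀ s : Set (E ⧸ L), MeasurableSet s → m ((fun x => g • x) ⁻¹' s) = m s) :
    m.IsOpenPosMeasure := by
  refine ⟨fun U hU hne hm0 => h0 ?_⟩
  obtain ⟨x, hx⟩ := hne
  have hopen : ∀ g : E, IsOpen ((fun y : E ⧸ L => g • y) ⁻¹' U) := fun g =>
    hU.preimage (continuous_const_smul g)
  have hcov : (⋃ g : E, (fun y : E ⧸ L => g • y) ⁻¹' U) = Set.univ := by
    refine Set.eq_univ_of_forall fun y => ?_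
    obtain ⟨g, hg⟩ := MulAction.exists_smul_eq E y x
    exact Set.mem_iUnion.2 ⟨g, by rw [Set.mem_preimage, hg]; exact hx⟩
  obtain ⟨T, hT, hTU⟩ := TopologicalSpace.isOpen_iUnion_countable
    (fun g : E => (fun y : E ⧸ L => g • y) ⁻¹' U) hopen
  rw [← measure_univ_eq_zero, ← hcov, ← hTU]
  refine (measure_biUnion_null_iff hT).2 fun g _ => ?_
  rw [hinv g U hU.measurableSet]
  exact hm0

section main

variable {ι Γ H₁ H₂ ℋ : Type} [Fintype ι] [Group Γ] [Group H₁] [Group H₂] [TopologicalSpace H₁]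
    [TopologicalSpace H₂] [NormedAddCommGroup ℋ] [InnerProductSpace ℂ ℋ] [CompleteSpace ℋ]
    {V R₁ R₂ : Γ →* (ℋ →L[ℂ] ℋ)} {ξ : ι → ℋ} {p₁ : Γ →* H₁} {p₂ : Γ →* H₂}

/-- the joint representation of `Γ × Γ` -/
noncomputable def RR (R₁ R₂ : Γ →* (ℋ →L[ℂ] ℋ)) (h : ∀ g h, R₁ g * R₂ h = R₂ h * R₁ g) :
    Γ × Γ →* (ℋ →L[ℂ] ℋ) :=
  MonoidHom.noncommCoprod R₁ R₂ h

theorem RR_apply (h : ∀ g h, R₁ g * R₂ h = R₂ h * R₁ g) (d : Γ × Γ) :
    RR R₁ R₂ h d = R₁ d.1 * R₂ d.2 := rfl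

theorem op_inv (S : Γ →* (ℋ →L[ℂ] ℋ)) (g : Γ) : S g * S g⁻¹ = 1 := by
  rw [← map_mul, mul_inv_cancel, map_one]

/-- a family on leg 1 -/
theorem fam_of_leg1 {q₁ : Γ →* H₁} (hT : SR.Tri V R₁ R₂ ξ) {P : Set H₁ → (ℋ →L[ℂ] ℋ)}
    (hP : SR.PFam p₁ q₁ V R₁ (Set.range R₂) P) :
    Fam V (RR R₁ R₂ hT.comm₁₂) p₁ (q₁.comp (MonoidHom.fst Γ Γ)) P where
  adj C hC := hP.adj C hC
  idem C hC := by rw [hP.mul C C hC hC, Set.inter_self]
  add C D hC hD h := hP.add C D hC hD h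
  covV g C hC := hP.covS g C hC
  covR d C hC := by
    have h1 : R₂ d.2 * P C * R₂ d.2⁻¹ = P C := by
      rw [hP.comm _ ⟨d.2, rfl⟩ C hC, mul_assoc, op_inv, mul_one]
    have h2 := hP.covT d.1 C hC
    have h3 : RR R₁ R₂ hT.comm₁₂ d⁻¹ = R₂ d.2⁻¹ * R₁ d.1⁻¹ := by
      rw [RR_apply, hT.comm₁₂]; rfl
    rw [h3, RR_apply]
    calc R₁ d.1 * R₂ d.2 * P C * (R₂ d.2⁻¹ * R₁ d.1⁻¹)
        = R₁ d.1 * (R₂ d.2 * P C * R₂ d.2⁻¹) * R₁ d.1⁻¹ := by simp only [mul_assoc]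
      _ = _ := by rw [h1]; exact h2
  nondeg ζ h := hP.nondeg ζ h

/-- a family on leg 2 -/
theorem fam_of_leg2 {q₁ : Γ →* H₁} (hT : SR.Tri V R₁ R₂ ξ) {P : Set H₁ → (ℋ →L[ℂ] ℋ)}
    (hP : SR.PFam p₁ q₁ V R₂ (Set.range R₁) P) :
    Fam V (RR R₁ R₂ hT.comm₁₂) p₁ (q₁.comp (MonoidHom.snd Γ Γ)) P where
  adj C hC := hP.adj C hC
  idem C hC := by rw [hP.mul C C hC hC, Set.inter_self]
  add C D hC hD h := hP.add C D hC hD h
  covV g C hC := hP.covS g C hC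
  covR d C hC := by
    have h1 : R₁ d.1 * P C * R₁ d.1⁻¹ = P C := by
      rw [hP.comm _ ⟨d.1, rfl⟩ C hC, mul_assoc, op_inv, mul_one]
    have h2 := hP.covT d.2 C hC
    have h3 : RR R₁ R₂ hT.comm₁₂ d⁻¹ = R₁ d.1⁻¹ * R₂ d.2⁻¹ := rfl
    rw [h3, RR_apply, hT.comm₁₂]
    calc R₂ d.2 * R₁ d.1 * P C * (R₁ d.1⁻¹ * R₂ d.2⁻¹)
        = R₂ d.2 * (R₁ d.1 * P C * R₁ d.1⁻¹) * R₂ d.2⁻¹ := by simp only [mul_assoc]
      _ = _ := by rw [h1]; exact h2
  nondeg ζ h := hP.nondeg ζ h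

/-- **Families over different places of a lattice commute.** -/
theorem good_comm (hT : SR.Tri V R₁ R₂ ξ) (h₁ : SR.GoodGrp H₁) (h₂ : SR.GoodGrp H₂)
    (hI : SR.Irr p₁ p₂) {ψ₁ : Γ × Γ →* H₁} {ψ₂ : Γ × Γ →* H₂} {P : Set H₁ → (ℋ →L[ℂ] ℋ)}
    {Q : Set H₂ → (ℋ →L[ℂ] ℋ)} (hP : Fam V (RR R₁ R₂ hT.comm₁₂) p₁ ψ₁ P)
    (hQ : Fam V (RR R₁ R₂ hT.comm₁₂) p₂ ψ₂ Q) {C : Set H₁} {D : Set H₂} (hC : SR.CO C)
    (hD : SR.CO D) : P C * Q D = Q D * P C := by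
  haveI := h₁.top
  haveI := h₁.t2
  haveI := h₁.sc
  haveI := h₂.top
  haveI := h₂.t2
  haveI := h₂.sc
  haveI := lc_of_good h₁
  haveI := lc_of_good h₂
  haveI := hI.countable
  borelize H₁ H₂
  let _ : MeasurableSpace ((H₁ × H₂) ⧸ (p₁.prod p₂).range) := borel _
  have hB : BorelSpace ((H₁ × H₂) ⧸ (p₁.prod p₂).range) := ⟨rfl⟩
  obtain ⟨m, hm0, hmf, hminv⟩ := hI.lat.covol
  haveI : IsFiniteMeasure m := ⟨hmf⟩
  haveI : m.IsOpenPosMeasure := openPos _ m hm0 hminv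
  haveI : (haar : Measure H₁).IsMulRightInvariant := right_inv h₁.perfect _
  have hmp : ∀ g : H₁ × H₂, MeasurePreserving (fun x => g • x) m m := fun g => by
    have hmeas : Measurable fun x : (H₁ × H₂) ⧸ (p₁.prod p₂).range => g • x :=
      (continuous_const_smul g).measurable
    refine ⟨hmeas, ?_⟩
    ext s hs
    rw [Measure.map_apply hmeas hs]
    exact hminv g s hs
  refine fam_comm' (ξ := ξ) (haar : Measure H₁) (haar : Measure H₂) hP hQ hT.adjV ?_ ?_ ?_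
    (p₁.prod p₂).range ?_ m hmp (smallCO_of_good h₁) (smallCO_of_good h₂) h₁.recur hD hC
  · intro d
    rw [RR_apply]
    have e : ∀ a b : ℋ →L[ℂ] ℋ, adjoint (a * b) = adjoint b * adjoint a := fun a b =>
      adjoint_comp _ _
    rw [e, hT.adj₁, hT.adj₂, ← hT.comm₁₂]
    rfl
  · intro g d
    rw [RR_apply, ← mul_assoc, hT.comm₁, mul_assoc, hT.comm₂, mul_assoc]
  · exact hT.frame
  · rintro l ⟨g, rfl⟩
    exact ⟨g, rfl⟩

end main

theorem c5 : SR.C5Stmt := by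
  intro ι Γ H₁ H₂ ℋ _ _ _ _ _ _ _ _ _ V R₁ R₂ ξ p₁ q₁ p₂ q₂ hT h₁ h₂ hI _ P₁ P₂ hP₁ hP₂ C D hC hD
  exact good_comm hT h₁ h₂ hI (fam_of_leg1 hT hP₁) (fam_of_leg1 hT hP₂) hC hD

theorem c6 : SR.C6Stmt := by
  intro ι Γ H₁ H₂ ℋ _ _ _ _ _ _ _ _ _ V R₁ R₂ ξ p₁ q₁ r₁ p₂ q₂ r₂ hT h₁ h₂ hI _ _ P₁ P₂ hP₁ hP₂ C
    D hC hD
  exact good_comm hT h₁ h₂ hI (fam_of_leg1 hT hP₁) (fam_of_leg2 hT hP₂) hC hD

end Vale.Agent.P092.H136
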